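import Mathlib

namespace Vale.Agent.Lib.P302

/-- total size of a list of item types `(size, count)` -/
def vol (T : List (ℕ × ℕ)) : ℕ := (T.map (fun p => p.1 * p.2)).sum

/-- the multiset of items described by a list of types `(size, count)` -/
def expand (T : List (ℕ × ℕ)) : Multiset ℕ :=
  (T.map (fun p => Multiset.replicate p.2 p.1)).sum

/-- Enumerate the ways to complete one bin with items of the types in the list
(`room` = free capacity left, `acc` = reversed list of the types already decided, with the
counts that remain, `v` = an upper bound for the total size of the undecided types).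
A completed bin must waste at most `slack`; then the continuation `k` is called. -/
def tryBin (slack : ℕ) (k : List (ℕ × ℕ) → ℕ → Bool) :
    List (ℕ × ℕ) → List (ℕ × ℕ) → ℕ → ℕ → Bool
  | [], acc, room, _ => decide (room ≤ slack) && k acc.reverse room
  | (a, c) :: rest, acc, room, v =>
      if slack + v < room then false
      else (List.range (c + 1)).any (fun j =>
        decide (j * a ≤ room) &&
          tryBin slack k rest ((a, c - j) :: acc) (room - j * a) (v - a * c))

/-- `search L fuel T slack = false` certifies that the items `expand T` cannot be packed into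
bins of capacity `L` with total waste at most `slack`. -/
def search (L : ℕ) : ℕ → List (ℕ × ℕ) → ℕ → Bool
  | 0, _, _ => true
  | _ + 1, [], _ => true
  | fuel + 1, (_, 0) :: rest, slack => search L fuel rest slack
  | fuel + 1, (a, c + 1) :: rest, slack =>
      if L < a then false
      else tryBin slack (fun T' room' => search L fuel T' (slack - room'))
        ((a, c) :: rest) [] (L - a) (vol ((a, c) :: rest))

/-- reduce the counts of a type list by a list of choices -/
def reduce : List (ℕ × ℕ) → List ℕ → List (ℕ × ℕ)
  | [], _ => []
  | p :: rest, [] => p :: rest
  | (a, c) :: rest, j :: js => (a, c - j) :: reduce rest js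

/-- total size of the chosen items -/
def chosen : List (ℕ × ℕ) → List ℕ → ℕ
  | (a, _) :: rest, j :: js => j * a + chosen rest js
  | _, _ => 0

theorem vol_cons (a c : ℕ) (rest : List (ℕ × ℕ)) : vol ((a, c) :: rest) = a * c + vol rest := by
  simp [vol]

theorem expand_cons (a c : ℕ) (rest : List (ℕ × ℕ)) :
    expand ((a, c) :: rest) = Multiset.replicate c a + expand rest := by
  simp [expand]

theorem sum_expand (T : List (ℕ × ℕ)) : (expand T).sum = vol T := by
  induction T with
  | nil => simp [expand, vol]
  | cons p rest ih =>
    obtain ⟨a, c⟩ := p
    rw [expand_cons, vol_cons, Multiset.sum_add, ih, Multiset.sum_replicate, smul_eq_mul, mul_comm]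

theorem chosen_le_vol : ∀ (T0 : List (ℕ × ℕ)) (js : List ℕ),
    List.Forall₂ (fun p j => j ≤ p.2) T0 js → chosen T0 js ≤ vol T0 := by
  intro T0 js h
  induction h with
  | nil => simp [chosen]
  | @cons p j rest js hj _ ih =>
    obtain ⟨a, c⟩ := p
    simp only [chosen, vol_cons]
    have : j * a ≤ a * c := by
      rw [mul_comm]; exact Nat.mul_le_mul_left a hj
    omega

theorem tryBin_complete (slack : ℕ) (k : List (ℕ × ℕ) → ℕ → Bool) :
    ∀ (T0 : List (ℕ × ℕ)) (js : List ℕ), List.Forall₂ (fun p j => j ≤ p.2) T0 js →
    ∀ (acc : List (ℕ × ℕ)) (room v : ℕ), chosen T0 js ≤ room → room - chosen T0 js ≤ slack →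
      vol T0 ≤ v → k (acc.reverse ++ reduce T0 js) (room - chosen T0 js) = true →
      tryBin slack k T0 acc room v = true := by
  intro T0 js h
  induction h with
  | nil =>
    intro acc room v _ h2 _ h4
    simp only [chosen, reduce, List.append_nil, Nat.sub_zero] at h2 h4
    simp [tryBin, h2, h4]
  | @cons p j rest js hj hrest ih =>
    obtain ⟨a, c⟩ := p
    intro acc room v h1 h2 h3 h4
    have hcv := chosen_le_vol rest js hrest
    simp only [chosen] at h1 h2 h4
    simp only [vol_cons] at h3
    have hja : j * a ≤ a * c := by
      rw [mul_comm]; exact Nat.mul_le_mul_left a hj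
    have hj' : j ≤ c := hj
    unfold tryBin
    have hnot : ¬ (slack + v < room) := by omega
    rw [if_neg hnot]
    rw [List.any_eq_true]
    refine ⟨j, List.mem_range.mpr (by omega), ?_⟩
    have hdec : decide (j * a ≤ room) = true := by
      apply decide_eq_true; omega
    rw [hdec, Bool.true_and]
    apply ih
    · omega
    · have : room - j * a - chosen rest js = room - (j * a + chosen rest js) := by omega
      rw [this]; exact h2
    · omega
    · have e1 : room - j * a - chosen rest js = room - (j * a + chosen rest js) := by omega
      rw [e1]
      have e2 : ((a, c - j) :: acc).reverse ++ reduce rest js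
          = acc.reverse ++ reduce ((a, c) :: rest) (j :: js) := by
        simp [reduce]
      rw [e2]; exact h4

theorem exists_choice : ∀ (T0 : List (ℕ × ℕ)) (s J : Multiset ℕ), s + J = expand T0 →
    ∃ js : List ℕ, List.Forall₂ (fun p j => j ≤ p.2) T0 js ∧ chosen T0 js = s.sum ∧
      expand (reduce T0 js) = J := by
  intro T0
  induction T0 with
  | nil =>
    intro s J h
    have h0 : s + J = 0 := by simpa [expand] using h
    have hs : s = 0 := (add_eq_zero.mp h0).1
    have hJ : J = 0 := (add_eq_zero.mp h0).2
    refine ⟨[], List.Forall₂.nil, ?_, ?_⟩
    · simp [chosen, hs]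
    · simp [reduce, expand, hJ]
  | cons p rest ih =>
    obtain ⟨a, c⟩ := p
    intro s J h
    rw [expand_cons] at h
    set j := min (s.count a) c with hjdef
    have hcount : ∀ x, s.count x + J.count x
        = (if a = x then c else 0) + (expand rest).count x := by
      intro x
      have := congrArg (Multiset.count x) h
      simpa [Multiset.count_add, Multiset.count_replicate] using this
    have hsplit : (s - Multiset.replicate j a) + (J - Multiset.replicate (c - j) a)
        = expand rest := by
      ext x
      have hx := hcount x
      simp only [Multiset.count_add, Multiset.count_sub, Multiset.count_replicate]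
      by_cases hax : a = x
      · subst hax
        simp only [if_true] at hx ⊢
        omega
      · simp only [if_neg hax] at hx ⊢
        omega
    obtain ⟨js, hjs, hch, hex⟩ := ih _ _ hsplit
    have hle1 : Multiset.replicate j a ≤ s := by
      rw [Multiset.le_iff_count]
      intro x
      simp only [Multiset.count_replicate]
      by_cases hax : a = x
      · subst hax; simp only [if_true]; omega
      · simp [if_neg hax]
    have hle2 : Multiset.replicate (c - j) a ≤ J := by
      rw [Multiset.le_iff_count]
      intro x
      have hx := hcount x
      simp only [Multiset.count_replicate]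
      by_cases hax : a = x
      · subst hax; simp only [if_true] at hx ⊢; omega
      · simp [if_neg hax]
    refine ⟨j :: js, List.Forall₂.cons (by simp [hjdef]) hjs, ?_, ?_⟩
    · simp only [chosen]
      rw [hch]
      have : s = Multiset.replicate j a + (s - Multiset.replicate j a) := by
        rw [add_comm]; exact (tsub_add_cancel_of_le hle1).symm
      conv_rhs => rw [this]
      rw [Multiset.sum_add, Multiset.sum_replicate, smul_eq_mul]
    · simp only [reduce]
      rw [expand_cons, hex]
      rw [add_comm]; exact tsub_add_cancel_of_le hle2

theorem sum_join_le (L : ℕ) (P : Multiset (Multiset ℕ)) (h : ∀ b ∈ P, b.sum ≤ L) :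
    P.join.sum ≤ Multiset.card P * L := by
  induction P using Multiset.induction_on with
  | empty => simp
  | cons b P ih =>
    rw [Multiset.join_cons, Multiset.sum_add, Multiset.card_cons]
    have h1 := h b (Multiset.mem_cons_self b P)
    have h2 := ih (fun b' hb' => h b' (Multiset.mem_cons_of_mem hb'))
    have : (Multiset.card P + 1) * L = Multiset.card P * L + L := by ring
    omega

theorem search_sound (L : ℕ) : ∀ (fuel : ℕ) (T : List (ℕ × ℕ)) (slack : ℕ)
    (P : Multiset (Multiset ℕ)), P.join = expand T → (∀ b ∈ P, b.sum ≤ L) →
    Multiset.card P * L ≤ vol T + slack → search L fuel T slack = true := by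
  intro fuel
  induction fuel with
  | zero => intro T slack P _ _ _; simp [search]
  | succ fuel ih =>
    intro T slack P hP hb hw
    match T, hP, hw with
    | [], _, _ => simp [search]
    | (a, 0) :: rest, hP, hw =>
      simp only [search]
      apply ih rest slack P
      · rw [hP, expand_cons]; simp
      · exact hb
      · rw [vol_cons] at hw; simpa using hw
    | (a, c + 1) :: rest, hP, hw =>
      have hexp : expand ((a, c + 1) :: rest) = a ::ₘ expand ((a, c) :: rest) := by
        rw [expand_cons, expand_cons, Multiset.replicate_succ, Multiset.cons_add]
      have hmem : a ∈ P.join := by rw [hP, hexp]; exact Multiset.mem_cons_self _ _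
      obtain ⟨b, hbP, hab⟩ := Multiset.mem_join.mp hmem
      have hbL := hb b hbP
      have hbsum : b.sum = a + (b.erase a).sum := by
        conv_lhs => rw [← Multiset.cons_erase hab]
        rw [Multiset.sum_cons]
      have hPe : P = b ::ₘ P.erase b := (Multiset.cons_erase hbP).symm
      have hjoin : b.erase a + (P.erase b).join = expand ((a, c) :: rest) := by
        have h1 : P.join = b + (P.erase b).join := by
          conv_lhs => rw [hPe]
          rw [Multiset.join_cons]
        rw [h1, hexp] at hP
        have h2 : a ::ₘ (b.erase a + (P.erase b).join) = b + (P.erase b).join := by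
          rw [← Multiset.cons_add, Multiset.cons_erase hab]
        rw [← h2] at hP
        exact (Multiset.cons_inj_right a).mp hP
      obtain ⟨js, hjs, hch, hex⟩ := exists_choice _ _ _ hjoin
      have hcard : Multiset.card P = Multiset.card (P.erase b) + 1 := by
        conv_lhs => rw [hPe]
        rw [Multiset.card_cons]
      have hb' : ∀ b' ∈ P.erase b, b'.sum ≤ L := fun b' hb'' =>
        hb b' (Multiset.mem_of_mem_erase hb'')
      have hsj := sum_join_le L (P.erase b) hb'
      have hvol : vol ((a, c + 1) :: rest) = b.sum + (P.erase b).join.sum := by
        rw [← sum_expand, ← hP]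
        conv_lhs => rw [hPe]
        rw [Multiset.join_cons, Multiset.sum_add]
      have hmul : (Multiset.card (P.erase b) + 1) * L = Multiset.card (P.erase b) * L + L := by
        ring
      rw [hcard, hmul, hvol] at hw
      have hred : vol (reduce ((a, c) :: rest) js) = (P.erase b).join.sum := by
        rw [← sum_expand, hex]
      simp only [search]
      have hnot : ¬ (L < a) := by omega
      rw [if_neg hnot]
      apply tryBin_complete slack _ ((a, c) :: rest) js hjs [] (L - a) (vol ((a, c) :: rest))
      · omega
      · omega
      · exact le_refl _
      · simp only [List.reverse_nil, List.nil_append]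
        apply ih _ _ (P.erase b) hex.symm hb'
        rw [hred]
        omega

/-- If the search fails with waste budget `K * L - vol T`, every packing of the items
`expand T` into bins of capacity `L` uses at least `K + 1` bins. -/
theorem no_packing (L K fuel : ℕ) (T : List (ℕ × ℕ))
    (h : search L fuel T (K * L - vol T) = false) (P : Multiset (Multiset ℕ))
    (hP : P.join = expand T) (hb : ∀ b ∈ P, b.sum ≤ L) : K + 1 ≤ Multiset.card P := by
  by_contra hlt
  have hle : Multiset.card P ≤ K := by omega
  have h1 := sum_join_le L P hb
  rw [hP, sum_expand] at h1
  have h2 : Multiset.card P * L ≤ K * L := Nat.mul_le_mul_right L hle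
  have h3 := search_sound L fuel T (K * L - vol T) P hP hb (by omega)
  rw [h] at h3
  exact Bool.false_ne_true h3

end Vale.Agent.Lib.P302
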