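import Mathlib
import Vale.Agent.Lib.P302.Defs
import Vale.Agent.Lib.P302.Check

namespace Vale.Agent.Lib.P302

/-- the rational instance with capacity-`L` integer data `T` -/
def inst (L : ℕ) (T : List (ℕ × ℕ)) : Multiset ℚ :=
  (expand T).map (fun a : ℕ => (a : ℚ) / L)

theorem phi_inj (L : ℕ) (hL : 0 < L) : Function.Injective (fun a : ℕ => (a : ℚ) / L) := by
  intro a b h
  have hL' : (L : ℚ) ≠ 0 := by exact_mod_cast hL.ne'
  have h' : (a : ℚ) = b := by
    have := congrArg (fun q : ℚ => q * L) h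
    simpa [div_mul_cancel₀, hL'] using this
  exact_mod_cast h'

theorem inst_size (L : ℕ) (hL : 0 < L) (T : List (ℕ × ℕ))
    (hT : ∀ a ∈ expand T, 0 < a ∧ a ≤ L) : ∀ q ∈ inst L T, 0 < q ∧ q ≤ 1 := by
  intro q hq
  obtain ⟨a, ha, rfl⟩ := Multiset.mem_map.mp hq
  have hL' : (0 : ℚ) < L := by exact_mod_cast hL
  obtain ⟨h1, h2⟩ := hT a ha
  constructor
  · apply div_pos _ hL'
    exact_mod_cast h1
  · rw [div_le_one hL']
    exact_mod_cast h2

theorem opt_lower (L K fuel : ℕ) (hL : 0 < L) (T : List (ℕ × ℕ))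
    (hT : ∀ a ∈ expand T, 0 < a ∧ a ≤ L)
    (h : search L fuel T (K * L - vol T) = false) : K + 1 ≤ opt (inst L T) := by
  have hL' : (0 : ℚ) < L := by exact_mod_cast hL
  have hL0 : (L : ℚ) ≠ 0 := hL'.ne'
  unfold opt
  apply le_csInf
  · refine ⟨_, (inst L T).map (fun q => ({q} : Multiset ℚ)), ⟨?_, ?_⟩, rfl⟩
    · have := Multiset.bind_singleton (inst L T) (fun q => q)
      simpa [Multiset.bind] using this
    · intro b hb
      obtain ⟨q, hq, rfl⟩ := Multiset.mem_map.mp hb
      simpa using (inst_size L hL T hT q hq).2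
  · rintro k ⟨P, ⟨hP, hb⟩, rfl⟩
    set psi : ℚ → ℕ := fun q => ⌊q * L⌋₊ with hpsi
    have hpsiphi : ∀ a : ℕ, psi ((a : ℚ) / L) = a := by
      intro a
      simp only [hpsi]
      rw [div_mul_cancel₀ _ hL0]
      exact Nat.floor_natCast a
    have hjoin : (P.map (Multiset.map psi)).join = expand T := by
      rw [← Multiset.map_join, hP, inst, Multiset.map_map]
      have : (psi ∘ fun a : ℕ => (a : ℚ) / L) = id := by
        funext a; exact hpsiphi a
      rw [this, Multiset.map_id]
    have hbins : ∀ b' ∈ P.map (Multiset.map psi), b'.sum ≤ L := by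
      intro b' hb'
      obtain ⟨b, hbP, rfl⟩ := Multiset.mem_map.mp hb'
      have hsum : ((b.map psi).sum : ℚ) = b.sum * L := by
        rw [Nat.cast_multiset_sum, Multiset.map_map]
        have h2 : (b.map (fun q : ℚ => q * (L : ℚ))).sum = b.sum * L := by
          rw [Multiset.sum_map_mul_right]; simp
        rw [← h2]
        apply congrArg
        apply Multiset.map_congr rfl
        intro q hq
        have hqI : q ∈ inst L T := by
          rw [← hP]; exact Multiset.mem_join.mpr ⟨b, hbP, hq⟩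
        obtain ⟨a, _, rfl⟩ := Multiset.mem_map.mp hqI
        simp only [Function.comp]
        rw [hpsiphi a, div_mul_cancel₀ _ hL0]
      have h1 : ((b.map psi).sum : ℚ) ≤ L := by
        rw [hsum]
        calc b.sum * (L : ℚ) ≤ 1 * L := mul_le_mul_of_nonneg_right (hb b hbP) hL'.le
          _ = L := one_mul _
      exact_mod_cast h1
    have := no_packing L K fuel T h (P.map (Multiset.map psi)) hjoin hbins
    simpa using this

/-- the fractional solution given by a list of `(pattern, numerator)` with common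
denominator `D` -/
noncomputable def fracOf (L D : ℕ) (sol : List (List ℕ × ℕ)) : Multiset ℚ →₀ ℝ :=
  (sol.map (fun p => Finsupp.single
    ((p.1 : Multiset ℕ).map (fun a : ℕ => (a : ℚ) / L)) ((p.2 : ℝ) / D))).sum

theorem fracOf_cons (L D : ℕ) (p : List ℕ × ℕ) (sol : List (List ℕ × ℕ)) :
    fracOf L D (p :: sol) = Finsupp.single
      ((p.1 : Multiset ℕ).map (fun a : ℕ => (a : ℚ) / L)) ((p.2 : ℝ) / D) + fracOf L D sol := by
  simp [fracOf]

theorem fracOf_nonneg (L D : ℕ) (sol : List (List ℕ × ℕ)) (c : Multiset ℚ) :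
    0 ≤ fracOf L D sol c := by
  induction sol with
  | nil => simp [fracOf]
  | cons p sol ih =>
    rw [fracOf_cons, Finsupp.add_apply]
    apply add_nonneg _ ih
    rw [Finsupp.single_apply]
    split_ifs
    · positivity
    · exact le_refl _

theorem fracOf_support (L D : ℕ) (sol : List (List ℕ × ℕ)) (c : Multiset ℚ)
    (hc : c ∈ (fracOf L D sol).support) :
    ∃ p ∈ sol, (p.1 : Multiset ℕ).map (fun a : ℕ => (a : ℚ) / L) = c := by
  induction sol with
  | nil => simp [fracOf] at hc
  | cons p sol ih =>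
    rw [fracOf_cons] at hc
    have h1 := Finsupp.support_add hc
    rcases Finset.mem_union.mp h1 with h | h
    · have h2 := Finsupp.support_single_subset h
      have h3 : c = (p.1 : Multiset ℕ).map (fun a : ℕ => (a : ℚ) / L) := by simpa using h2
      exact ⟨p, List.mem_cons_self, h3.symm⟩
    · obtain ⟨q, hq, hqc⟩ := ih h
      exact ⟨q, List.mem_cons_of_mem _ hq, hqc⟩

theorem fracOf_sum (L D : ℕ) (sol : List (List ℕ × ℕ)) (g : Multiset ℚ → ℝ → ℝ)
    (h0 : ∀ c, g c 0 = 0) (hadd : ∀ c x y, g c (x + y) = g c x + g c y) :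
    (fracOf L D sol).sum g = (sol.map (fun p =>
      g ((p.1 : Multiset ℕ).map (fun a : ℕ => (a : ℚ) / L)) ((p.2 : ℝ) / D))).sum := by
  induction sol with
  | nil => simp [fracOf]
  | cons p sol ih =>
    rw [fracOf_cons, Finsupp.sum_add_index' h0 hadd, Finsupp.sum_single_index (h0 _), ih]
    simp

theorem list_sum_mul_div (D : ℕ) (sol : List (List ℕ × ℕ)) (f : List ℕ × ℕ → ℕ) :
    (sol.map (fun p => (f p : ℝ) * ((p.2 : ℝ) / D))).sum
      = (((sol.map (fun p => f p * p.2)).sum : ℕ) : ℝ) / D := by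
  induction sol with
  | nil => simp
  | cons p sol ih =>
    simp only [List.map_cons, List.sum_cons, Nat.cast_add, Nat.cast_mul]
    rw [ih, add_div, mul_div_assoc]

theorem lp_upper (L D : ℕ) (hL : 0 < L) (hD : 0 < D) (T : List (ℕ × ℕ))
    (sol : List (List ℕ × ℕ))
    (hcfg : ∀ p ∈ sol, (∀ a ∈ p.1, a ∈ expand T) ∧ p.1.sum ≤ L)
    (hcov : ∀ a ∈ expand T,
      D * (expand T).count a ≤ (sol.map (fun p => p.1.count a * p.2)).sum) :
    lp (inst L T) ≤ (((sol.map Prod.snd).sum : ℕ) : ℝ) / D := by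
  have hL' : (0 : ℚ) < L := by exact_mod_cast hL
  have hD' : (0 : ℝ) < D := by exact_mod_cast hD
  have hval : (fracOf L D sol).sum (fun _ w => w) = (((sol.map Prod.snd).sum : ℕ) : ℝ) / D := by
    rw [fracOf_sum L D sol (fun _ w => w) (fun _ => rfl) (fun _ _ _ => rfl)]
    have := list_sum_mul_div D sol (fun _ => 1)
    simpa using this
  have hsol : IsFracSol (inst L T) (fracOf L D sol) := by
    refine ⟨fracOf_nonneg L D sol, ?_, ?_⟩
    · intro c hc
      obtain ⟨p, hp, rfl⟩ := fracOf_support L D sol c hc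
      obtain ⟨h1, h2⟩ := hcfg p hp
      constructor
      · intro q hq
        obtain ⟨a, ha, rfl⟩ := Multiset.mem_map.mp hq
        exact Multiset.mem_map_of_mem _ (h1 a (by simpa using ha))
      · have e1 : (fun a : ℕ => (a : ℚ) / L) = (fun a : ℕ => (a : ℚ) * (L : ℚ)⁻¹) := by
          funext a; rw [div_eq_mul_inv]
        rw [e1, Multiset.sum_map_mul_right, ← Nat.cast_multiset_sum, Multiset.sum_coe,
          ← div_eq_mul_inv, div_le_one hL']
        exact_mod_cast h2
    · intro s hs
      obtain ⟨a, ha, rfl⟩ := Multiset.mem_map.mp hs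
      rw [inst, Multiset.count_map_eq_count' _ _ (phi_inj L hL)]
      rw [fracOf_sum L D sol _ (fun c => mul_zero _) (fun c x y => mul_add _ x y)]
      have e2 : (sol.map (fun p : List ℕ × ℕ =>
          (Multiset.count ((a : ℚ) / L)
            ((p.1 : Multiset ℕ).map (fun a : ℕ => (a : ℚ) / L)) : ℝ) * ((p.2 : ℝ) / D)))
          = sol.map (fun p : List ℕ × ℕ => ((p.1.count a : ℕ) : ℝ) * ((p.2 : ℝ) / D)) := by
        apply List.map_congr_left
        intro p _
        rw [Multiset.count_map_eq_count' _ _ (phi_inj L hL), Multiset.coe_count]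
      rw [e2, list_sum_mul_div D sol (fun p => p.1.count a), le_div_iff₀ hD']
      have := hcov a ha
      have h3 : ((D * (expand T).count a : ℕ) : ℝ)
          ≤ (((sol.map (fun p => p.1.count a * p.2)).sum : ℕ) : ℝ) := by exact_mod_cast this
      rw [Nat.cast_mul] at h3
      linarith
  unfold lp
  rw [← hval]
  apply csInf_le
  · refine ⟨0, ?_⟩
    rintro v ⟨z, hz, rfl⟩
    exact Finsupp.sum_nonneg (fun c _ => hz.1 c)
  · exact ⟨_, hsol, rfl⟩

/-- Main certificate theorem: integer data `L`, `T` with a failing search for `K` bins and a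
fractional solution of value `N / D` give an instance with `opt - lp ≥ K + 1 - N / D`. -/
theorem gap_certificate (L K fuel D : ℕ) (hL : 0 < L) (hD : 0 < D) (T : List (ℕ × ℕ))
    (sol : List (List ℕ × ℕ))
    (hT : ∀ a ∈ expand T, 0 < a ∧ a ≤ L)
    (h : search L fuel T (K * L - vol T) = false)
    (hcfg : ∀ p ∈ sol, (∀ a ∈ p.1, a ∈ expand T) ∧ p.1.sum ≤ L)
    (hcov : ∀ a ∈ expand T,
      D * (expand T).count a ≤ (sol.map (fun p => p.1.count a * p.2)).sum) :
    (∀ q ∈ inst L T, 0 < q ∧ q ≤ 1) ∧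
      ((K : ℝ) + 1 - (((sol.map Prod.snd).sum : ℕ) : ℝ) / D ≤ (opt (inst L T) : ℝ) - lp (inst L T)) := by
  refine ⟨inst_size L hL T hT, ?_⟩
  have h1 := opt_lower L K fuel hL T hT h
  have h2 := lp_upper L D hL hD T sol hcfg hcov
  have h3 : ((K : ℝ) + 1) ≤ (opt (inst L T) : ℝ) := by exact_mod_cast h1
  linarith

end Vale.Agent.Lib.P302
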