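import Mathlib
import Vale.Agent.Lib.P302.Defs
import Vale.Agent.Lib.P302.Check
import Vale.Agent.Lib.P302.Bridge

/-!
# A certificate for instances all of whose items are larger than a quarter of the bin

If every item is larger than `L / 4`, a bin holds at most three items, so a packing of `n`
items into `K` bins contains at least `n - 2 * K` bins with exactly three items.  By an
exchange argument, `k` disjoint triples of total size at most `L` exist among the items iff
the `3 * k` smallest items can be partitioned into `k` such triples; the latter is decided by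
the exhaustive search `part3`.
-/

namespace Vale.Agent.Lib.P302

/-- First element `z ≤ hi` of a list: returns `z`, the skipped elements (reversed, in front of
`acc`) and the elements after `z`. -/
def firstFit (hi : ℕ) : List ℕ → List ℕ → Option (ℕ × List ℕ × List ℕ)
  | _, [] => none
  | acc, z :: post => bif Nat.ble z hi then some (z, acc, post) else firstFit hi (z :: acc) post

/-- Look for the two partners `y ≥ z` of the item `x` among `post` (a list in decreasing order;
`acc` holds, reversed, the items already passed).  For each `y` only the largest admissible `z`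
after `y` is tried, and only if it is at least `zb` (smaller ones are dominated by a pair
tried before).  The continuation `k` is called with the list of the remaining items and the
remaining waste budget. -/
def scanY (k : List ℕ → ℕ → Bool) (L x w : ℕ) : ℕ → List ℕ → List ℕ → Bool
  | _, _, [] => false
  | zb, acc, y :: post =>
      bif Nat.ble (x + y) L then
        match firstFit (L - (x + y)) acc post with
        | none => scanY k L x w zb (y :: acc) post
        | some (z, acc', post') =>
            bif Nat.ble zb z then
              (Nat.ble (L - (x + y) - w) z &&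
                  k (acc'.reverseAux post') (w - (L - (x + y) - z)))
                || scanY k L x w (z + 1) (y :: acc) post
            else scanY k L x w zb (y :: acc) post
      else scanY k L x w zb (y :: acc) post

/-- `part3 L fuel l w = false` certifies that the items of the list `l` (in decreasing order)
cannot be partitioned into triples of total size at most `L` each with total waste at most
`w`. -/
def part3 (L : ℕ) : ℕ → List ℕ → ℕ → Bool
  | 0, _, _ => true
  | _ + 1, [], _ => true
  | fuel + 1, x :: rest, w => scanY (fun l' w' => part3 L fuel l' w') L x w 0 [] rest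

theorem firstFit_some (hi : ℕ) : ∀ (post acc : List ℕ) (z : ℕ) (acc' post' : List ℕ),
    firstFit hi acc post = some (z, acc', post') →
    ∃ sk : List ℕ, post = sk ++ z :: post' ∧ acc' = sk.reverse ++ acc ∧ z ≤ hi ∧
      ∀ s ∈ sk, hi < s := by
  intro post
  induction post with
  | nil => intro acc z acc' post' h; simp [firstFit] at h
  | cons z0 post ih =>
    intro acc z acc' post' h
    unfold firstFit at h
    by_cases hz : z0 ≤ hi
    · have hble : Nat.ble z0 hi = true := Nat.ble_eq.mpr hz
      rw [hble, cond_true] at h
      simp only [Option.some.injEq, Prod.mk.injEq] at h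
      obtain ⟨rfl, rfl, rfl⟩ := h
      exact ⟨[], by simp, by simp, hz, by simp⟩
    · have hble : Nat.ble z0 hi = false := by
        rw [← Bool.not_eq_true, Nat.ble_eq]; exact hz
      rw [hble, cond_false] at h
      obtain ⟨sk, h1, h2, h3, h4⟩ := ih (z0 :: acc) z acc' post' h
      refine ⟨z0 :: sk, by rw [h1]; rfl, by rw [h2]; simp, h3, ?_⟩
      intro s hs
      rcases List.mem_cons.mp hs with h5 | h5
      · subst h5; omega
      · exact h4 s h5

theorem firstFit_none (hi : ℕ) : ∀ (post acc : List ℕ), firstFit hi acc post = none →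
    ∀ s ∈ post, hi < s := by
  intro post
  induction post with
  | nil => intro acc _ s hs; simp at hs
  | cons z0 post ih =>
    intro acc h s hs
    unfold firstFit at h
    by_cases hz : z0 ≤ hi
    · have hble : Nat.ble z0 hi = true := Nat.ble_eq.mpr hz
      rw [hble, cond_true] at h
      simp at h
    · have hble : Nat.ble z0 hi = false := by
        rw [← Bool.not_eq_true, Nat.ble_eq]; exact hz
      rw [hble, cond_false] at h
      rcases List.mem_cons.mp hs with h5 | h5
      · subst h5; omega
      · exact ih (z0 :: acc) h s h5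

/-- Replace an item of a family of triples by a smaller number. -/
theorem replace_item (L : ℕ) (P : Multiset (Multiset ℕ))
    (hP : ∀ b ∈ P, Multiset.card b = 3 ∧ b.sum ≤ L) (a e : ℕ) (ha : a ∈ P.join) (he : e ≤ a) :
    ∃ P' : Multiset (Multiset ℕ), Multiset.card P' = Multiset.card P ∧
      (∀ b ∈ P', Multiset.card b = 3 ∧ b.sum ≤ L) ∧ P'.join = e ::ₘ P.join.erase a := by
  obtain ⟨b, hbP, hab⟩ := Multiset.mem_join.mp ha
  have hjoin : P.join = b + (P.erase b).join := by
    conv_lhs => rw [← Multiset.cons_erase hbP]
    rw [Multiset.join_cons]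
  refine ⟨(e ::ₘ b.erase a) ::ₘ P.erase b, ?_, ?_, ?_⟩
  · rw [Multiset.card_cons, Multiset.card_erase_of_mem hbP]
    have h1 : 0 < Multiset.card P := Multiset.card_pos_iff_exists_mem.mpr ⟨b, hbP⟩
    simp only [Nat.pred_eq_sub_one]
    omega
  · intro b' hb'
    rcases Multiset.mem_cons.mp hb' with h1 | h1
    · subst h1
      obtain ⟨hb3, hbL⟩ := hP b hbP
      constructor
      · rw [Multiset.card_cons, Multiset.card_erase_of_mem hab, hb3]; rfl
      · have h2 : b.sum = a + (b.erase a).sum := by
          conv_lhs => rw [← Multiset.cons_erase hab]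
          rw [Multiset.sum_cons]
        rw [Multiset.sum_cons]; omega
    · exact hP b' (Multiset.mem_of_mem_erase h1)
  · rw [Multiset.join_cons, hjoin, Multiset.erase_add_left_pos _ hab, Multiset.cons_add]

/-- `SolPair L x w M y z`: the items `x ::ₘ M` can be partitioned into triples of total size at
most `L`, with total waste at most `w`, such that the triple of `x` is `{x, y, z}`. -/
def SolPair (L x w : ℕ) (M : Multiset ℕ) (y z : ℕ) : Prop :=
  ∃ (R : Multiset ℕ) (P : Multiset (Multiset ℕ)), M = y ::ₘ z ::ₘ R ∧ x + y + z ≤ L ∧
    P.join = R ∧ (∀ b ∈ P, Multiset.card b = 3 ∧ b.sum ≤ L) ∧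
    (Multiset.card P + 1) * L ≤ x + M.sum + w

theorem solPair_swap {L x w : ℕ} {M : Multiset ℕ} {y z : ℕ} (h : SolPair L x w M y z) :
    SolPair L x w M z y := by
  obtain ⟨R, P, h1, h2, h3, h4, h5⟩ := h
  exact ⟨R, P, by rw [h1, Multiset.cons_swap], by omega, h3, h4, h5⟩

/-- Exchange step: the partner `z` may be replaced by a larger available item `z'`. -/
theorem solPair_mono {L x w : ℕ} {M : Multiset ℕ} {y z z' : ℕ} (h : SolPair L x w M y z)
    (hz : z ≤ z') (hv : ∃ R', M = y ::ₘ z' ::ₘ R') (hfit : x + y + z' ≤ L) :
    SolPair L x w M y z' := by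
  obtain ⟨R, P, h1, h2, h3, h4, h5⟩ := h
  obtain ⟨R', hR'⟩ := hv
  have e1 : z ::ₘ R = z' ::ₘ R' := (Multiset.cons_inj_right y).mp (h1.symm.trans hR')
  by_cases hzz : z = z'
  · subst hzz; exact ⟨R, P, h1, h2, h3, h4, h5⟩
  · have hz'R : z' ∈ R := by
      have h6 : z' ∈ z ::ₘ R := by rw [e1]; exact Multiset.mem_cons_self _ _
      rcases Multiset.mem_cons.mp h6 with h7 | h7
      · exact absurd h7.symm hzz
      · exact h7
    have hR'eq : R' = z ::ₘ R.erase z' := by
      have h6 := congrArg (fun s => s.erase z') e1
      simp only [Multiset.erase_cons_head] at h6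
      rw [Multiset.erase_cons_tail _ (fun h => hzz h)] at h6
      exact h6.symm
    obtain ⟨P', hc, hfit', hjoin⟩ := replace_item L P h4 z' z (by rw [h3]; exact hz'R) hz
    refine ⟨R', P', hR', hfit, ?_, hfit', ?_⟩
    · rw [hjoin, h3, hR'eq]
    · rw [hc]; exact h5

theorem scanY_complete (k : List ℕ → ℕ → Bool) (L x w : ℕ) (rest : List ℕ)
    (hsorted : rest.Pairwise (· ≥ ·))
    (hk : ∀ (l' : List ℕ) (w' : ℕ), l'.Pairwise (· ≥ ·) →
      (∃ P : Multiset (Multiset ℕ), P.join = (l' : Multiset ℕ) ∧
        (∀ b ∈ P, Multiset.card b = 3 ∧ b.sum ≤ L) ∧ Multiset.card P * L ≤ l'.sum + w') →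
      k l' w' = true) :
    ∀ (post acc : List ℕ) (zb : ℕ), rest = acc.reverse ++ post →
      (zb = 0 ∨ ∃ yk zk, zb = zk + 1 ∧ yk ∈ acc ∧ x + yk + zk ≤ L ∧
        (∃ R, (rest : Multiset ℕ) = yk ::ₘ zk ::ₘ R) ∧
        ¬ SolPair L x w (rest : Multiset ℕ) yk zk) →
      (∃ y z l1 l2, post = l1 ++ y :: l2 ∧ z ∈ l2 ∧ SolPair L x w (rest : Multiset ℕ) y z) →
      scanY k L x w zb acc post = true := by
  intro post
  induction post with
  | nil =>
    intro acc zb _ _ h
    obtain ⟨y, z, l1, l2, h1, _, _⟩ := h
    simp at h1
  | cons y0 post ih =>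
    intro acc zb hrest hhist htarget
    have hrest' : rest = (y0 :: acc).reverse ++ post := by
      rw [hrest, List.reverse_cons, List.append_assoc]; rfl
    have hhist' : (zb = 0 ∨ ∃ yk zk, zb = zk + 1 ∧ yk ∈ y0 :: acc ∧ x + yk + zk ≤ L ∧
        (∃ R, (rest : Multiset ℕ) = yk ::ₘ zk ::ₘ R) ∧
        ¬ SolPair L x w (rest : Multiset ℕ) yk zk) := by
      rcases hhist with h | ⟨yk, zk, h1, h2, h3⟩
      · exact Or.inl h
      · exact Or.inr ⟨yk, zk, h1, List.mem_cons_of_mem _ h2, h3⟩
    have hrec : ∀ zb', (zb' = 0 ∨ ∃ yk zk, zb' = zk + 1 ∧ yk ∈ y0 :: acc ∧ x + yk + zk ≤ L ∧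
        (∃ R, (rest : Multiset ℕ) = yk ::ₘ zk ::ₘ R) ∧
        ¬ SolPair L x w (rest : Multiset ℕ) yk zk) →
        (∀ z ∈ post, ¬ SolPair L x w (rest : Multiset ℕ) y0 z) →
        scanY k L x w zb' (y0 :: acc) post = true := by
      intro zb' hh hno
      apply ih (y0 :: acc) zb' hrest' hh
      obtain ⟨y, z, l1, l2, h1, h2, h3⟩ := htarget
      cases l1 with
      | nil =>
        simp only [List.nil_append, List.cons.injEq] at h1
        obtain ⟨rfl, rfl⟩ := h1
        exact absurd h3 (hno z h2)
      | cons a l1' =>
        simp only [List.cons_append, List.cons.injEq] at h1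
        exact ⟨y, z, l1', l2, h1.2, h2, h3⟩
    unfold scanY
    by_cases hxy : x + y0 ≤ L
    · have hble : Nat.ble (x + y0) L = true := Nat.ble_eq.mpr hxy
      rw [hble, cond_true]
      rcases hff : firstFit (L - (x + y0)) acc post with _ | ⟨z0, acc', post'⟩
      · dsimp only
        apply hrec zb hhist'
        intro z hz hs
        have h1 := firstFit_none _ _ _ hff z hz
        obtain ⟨R, P, -, h2, -⟩ := hs
        omega
      · dsimp only
        obtain ⟨sk, hpost, hacc', hz0, hsk⟩ := firstFit_some _ _ _ _ _ _ hff
        have hl'eq : acc'.reverseAux post' = acc.reverse ++ (sk ++ post') := by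
          rw [List.reverseAux_eq, hacc', List.reverse_append, List.reverse_reverse,
            List.append_assoc]
        have hsub : (acc.reverse ++ (sk ++ post')).Sublist rest := by
          rw [hrest, hpost]
          apply List.Sublist.append (List.Sublist.refl _)
          apply List.Sublist.cons
          exact List.Sublist.append (List.Sublist.refl _) (List.sublist_cons_self z0 post')
        have hl'sorted : (acc'.reverseAux post').Pairwise (· ≥ ·) := by
          rw [hl'eq]; exact hsorted.sublist hsub
        have hvalid0 : (rest : Multiset ℕ)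
            = y0 ::ₘ z0 ::ₘ ((acc'.reverseAux post' : List ℕ) : Multiset ℕ) := by
          rw [hl'eq, hrest, hpost]
          simp only [← Multiset.coe_add, ← Multiset.cons_coe, Multiset.add_cons]
        have hsort2 := List.pairwise_append.mp (hrest ▸ hsorted)
        have hy0_le : ∀ yk ∈ acc, y0 ≤ yk := by
          intro yk hyk
          exact hsort2.2.2 yk (List.mem_reverse.mpr hyk) y0 List.mem_cons_self
        have hpost_sorted : (sk ++ z0 :: post').Pairwise (· ≥ ·) := by
          rw [← hpost]; exact (List.pairwise_cons.mp hsort2.2.1).2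
        have hz_le : ∀ z ∈ post, z ≤ L - (x + y0) → z ≤ z0 := by
          intro z hz hzhi
          rw [hpost] at hz
          rcases List.mem_append.mp hz with h1 | h1
          · have := hsk z h1; omega
          · rcases List.mem_cons.mp h1 with h2 | h2
            · exact h2.le
            · exact (List.pairwise_cons.mp (List.pairwise_append.mp hpost_sorted).2.1).1 z h2
        have hhead : ∀ z ∈ post, SolPair L x w (rest : Multiset ℕ) y0 z →
            SolPair L x w (rest : Multiset ℕ) y0 z0 := by
          intro z hz hs
          have hfit : x + y0 + z ≤ L := by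
            obtain ⟨R, P, -, h2, -⟩ := hs
            exact h2
          exact solPair_mono hs (hz_le z hz (by omega)) ⟨_, hvalid0⟩ (by omega)
        by_cases hzb : zb ≤ z0
        · have hble2 : Nat.ble zb z0 = true := Nat.ble_eq.mpr hzb
          rw [hble2, cond_true]
          by_cases hs0 : SolPair L x w (rest : Multiset ℕ) y0 z0
          · obtain ⟨R, P, h1, h2, h3, h4, h5⟩ := hs0
            have hR : R = ((acc'.reverseAux post' : List ℕ) : Multiset ℕ) := by
              have h6 := h1.symm.trans hvalid0
              exact (Multiset.cons_inj_right z0).mp ((Multiset.cons_inj_right y0).mp h6)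
            have hsum : (rest : Multiset ℕ).sum = y0 + z0 + R.sum := by
              rw [h1]; simp [add_assoc]
            have hsj := sum_join_le L P (fun b hb => (h4 b hb).2)
            rw [h3] at hsj
            have hmul : (Multiset.card P + 1) * L = Multiset.card P * L + L := by ring
            have hlsum : (acc'.reverseAux post').sum = R.sum := by
              rw [hR]; exact (Multiset.sum_coe _).symm
            rw [hsum, hmul] at h5
            have hk' := hk (acc'.reverseAux post') (w - (L - (x + y0) - z0)) hl'sorted
              ⟨P, by rw [h3, hR], h4, by rw [hlsum]; omega⟩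
            rw [Bool.or_eq_true]
            left
            rw [Bool.and_eq_true]
            exact ⟨Nat.ble_eq.mpr (by omega), hk'⟩
          · rw [Bool.or_eq_true]
            right
            apply hrec (z0 + 1)
              (Or.inr ⟨y0, z0, rfl, List.mem_cons_self, by omega, ⟨_, hvalid0⟩, hs0⟩)
            intro z hz hs
            exact hs0 (hhead z hz hs)
        · have hble2 : Nat.ble zb z0 = false := by
            rw [← Bool.not_eq_true, Nat.ble_eq]; exact hzb
          rw [hble2, cond_false]
          apply hrec zb hhist'
          intro z hz hs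
          have hs0 := hhead z hz hs
          rcases hhist with h | ⟨yk, zk, h1, h2, h3, ⟨Rk, h4⟩, h5⟩
          · omega
          · have hyk : y0 ≤ yk := hy0_le yk h2
            have hv : ∃ R', (rest : Multiset ℕ) = z0 ::ₘ yk ::ₘ R' := by
              obtain ⟨acc0, hacc0⟩ := Multiset.exists_cons_of_mem
                (show yk ∈ (acc : Multiset ℕ) from h2)
              refine ⟨acc0 + y0 ::ₘ ((sk ++ post' : List ℕ) : Multiset ℕ), ?_⟩
              rw [hrest, hpost]
              simp only [← Multiset.coe_add, ← Multiset.cons_coe, Multiset.coe_reverse,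
                Multiset.add_cons]
              rw [hacc0]
              simp only [Multiset.cons_add]
              rw [Multiset.cons_swap y0 z0, Multiset.cons_swap y0 yk]
            have h6 : SolPair L x w (rest : Multiset ℕ) yk z0 :=
              solPair_swap (solPair_mono (solPair_swap hs0) hyk hv (by omega))
            have h7 : SolPair L x w (rest : Multiset ℕ) yk zk :=
              solPair_mono h6 (by omega) ⟨Rk, h4⟩ h3
            exact h5 h7
    · have hble : Nat.ble (x + y0) L = false := by
        rw [← Bool.not_eq_true, Nat.ble_eq]; exact hxy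
      rw [hble, cond_false]
      apply hrec zb hhist'
      intro z hz hs
      obtain ⟨R, P, -, h2, -⟩ := hs
      omega

theorem exists_split_pair (rest : List ℕ) (y z : ℕ) (R : Multiset ℕ)
    (h : (rest : Multiset ℕ) = y ::ₘ z ::ₘ R) :
    (∃ l1 l2, rest = l1 ++ y :: l2 ∧ z ∈ l2) ∨ (∃ l1 l2, rest = l1 ++ z :: l2 ∧ y ∈ l2) := by
  have hy : y ∈ rest := by
    have : y ∈ (rest : Multiset ℕ) := by rw [h]; exact Multiset.mem_cons_self _ _
    simpa using this
  obtain ⟨l1, l2, hl⟩ := List.append_of_mem hy
  have h1 : ((l1 : Multiset ℕ) + (l2 : Multiset ℕ)) = z ::ₘ R := by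
    have h2 : y ::ₘ ((l1 : Multiset ℕ) + (l2 : Multiset ℕ)) = y ::ₘ z ::ₘ R := by
      rw [← h, hl]
      simp only [← Multiset.coe_add, ← Multiset.cons_coe, Multiset.add_cons]
    exact (Multiset.cons_inj_right y).mp h2
  have hz : z ∈ (l1 : Multiset ℕ) + (l2 : Multiset ℕ) := by
    rw [h1]; exact Multiset.mem_cons_self _ _
  rcases Multiset.mem_add.mp hz with h3 | h3
  · have h4 : z ∈ l1 := by simpa using h3
    obtain ⟨s, t, hs⟩ := List.append_of_mem h4
    right
    exact ⟨s, t ++ y :: l2, by rw [hl, hs]; simp, by simp⟩
  · left
    exact ⟨l1, l2, hl, by simpa using h3⟩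

/-- Completeness of the search: if the items of `l` (in decreasing order) can be partitioned
into triples of total size at most `L` with total waste at most `w`, then
`part3 L fuel l w = true`. -/
theorem part3_complete (L : ℕ) : ∀ (fuel : ℕ) (l : List ℕ) (w : ℕ), l.Pairwise (· ≥ ·) →
    (∃ P : Multiset (Multiset ℕ), P.join = (l : Multiset ℕ) ∧
      (∀ b ∈ P, Multiset.card b = 3 ∧ b.sum ≤ L) ∧ Multiset.card P * L ≤ l.sum + w) →
    part3 L fuel l w = true := by
  intro fuel
  induction fuel with
  | zero => intro l w _ _; simp [part3]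
  | succ fuel ih =>
    intro l w hs hex
    obtain ⟨P, hP, hb, hw⟩ := hex
    match l, hs, hP, hw with
    | [], _, _, _ => simp [part3]
    | x :: rest, hs, hP, hw =>
      have hmem : x ∈ P.join := by rw [hP]; simp
      obtain ⟨b, hbP, hxb⟩ := Multiset.mem_join.mp hmem
      obtain ⟨hb3, hbL⟩ := hb b hbP
      have hcard2 : Multiset.card (b.erase x) = 2 := by
        rw [Multiset.card_erase_of_mem hxb, hb3]; rfl
      obtain ⟨y, z, hyz⟩ := Multiset.card_eq_two.mp hcard2
      have hbe : b = x ::ₘ y ::ₘ z ::ₘ 0 := by
        rw [← Multiset.cons_erase hxb, hyz]; rfl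
      have hPe : P = b ::ₘ P.erase b := (Multiset.cons_erase hbP).symm
      have hjoin : P.join = b + (P.erase b).join := by
        conv_lhs => rw [hPe]
        rw [Multiset.join_cons]
      have hrest : (rest : Multiset ℕ) = y ::ₘ z ::ₘ (P.erase b).join := by
        have h1 : x ::ₘ (rest : Multiset ℕ) = x ::ₘ (y ::ₘ z ::ₘ (P.erase b).join) := by
          have h2 : x ::ₘ (rest : Multiset ℕ) = P.join := by rw [hP]; rfl
          rw [h2, hjoin, hbe]
          simp
        exact (Multiset.cons_inj_right x).mp h1
      have hbsum : b.sum = x + y + z := by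
        rw [hbe]; simp [add_assoc]
      have hcard : Multiset.card P = Multiset.card (P.erase b) + 1 := by
        conv_lhs => rw [hPe]
        rw [Multiset.card_cons]
      have hb' : ∀ b' ∈ P.erase b, Multiset.card b' = 3 ∧ b'.sum ≤ L := fun b' hb'' =>
        hb b' (Multiset.mem_of_mem_erase hb'')
      rw [hcard] at hw
      simp only [List.sum_cons] at hw
      rw [hbsum] at hbL
      have hsol : SolPair L x w (rest : Multiset ℕ) y z :=
        ⟨(P.erase b).join, P.erase b, hrest, hbL, rfl, hb', by
          rw [Multiset.sum_coe]; exact hw⟩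
      simp only [part3]
      apply scanY_complete (fun l' w' => part3 L fuel l' w') L x w rest
        (List.pairwise_cons.mp hs).2 (fun l' w' hs' hP' => ih l' w' hs' hP') rest [] 0 rfl
        (Or.inl rfl)
      rcases exists_split_pair rest y z _ hrest with ⟨l1, l2, h1, h2⟩ | ⟨l1, l2, h1, h2⟩
      · exact ⟨y, z, l1, l2, h1, h2, hsol⟩
      · exact ⟨z, y, l1, l2, h1, h2, solPair_swap hsol⟩

/-- `HasTriples L k I`: among the items `I` there are `k` disjoint triples, each of total size
at most `L`. -/
def HasTriples (L k : ℕ) (I : Multiset ℕ) : Prop :=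
  ∃ P : Multiset (Multiset ℕ), Multiset.card P = k ∧
    (∀ b ∈ P, Multiset.card b = 3 ∧ b.sum ≤ L) ∧ P.join ≤ I

theorem card_join_triples (P : Multiset (Multiset ℕ)) (h : ∀ b ∈ P, Multiset.card b = 3) :
    Multiset.card P.join = 3 * Multiset.card P := by
  induction P using Multiset.induction_on with
  | empty => simp
  | cons b P ih =>
    rw [Multiset.join_cons, Multiset.card_add, Multiset.card_cons,
      h b (Multiset.mem_cons_self b P), ih (fun b' hb' => h b' (Multiset.mem_cons_of_mem hb'))]
    ring

/-- Exchange step: a largest item that is not needed for cardinality reasons can be dropped. -/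
theorem hasTriples_drop_max (L k m : ℕ) (I : Multiset ℕ) (hm : ∀ x ∈ I, x ≤ m)
    (hcard : 3 * k ≤ Multiset.card I) (h : HasTriples L k (m ::ₘ I)) : HasTriples L k I := by
  obtain ⟨P, hPk, hP3, hPle⟩ := h
  by_cases hmJ : m ∈ P.join
  · have hcJ : Multiset.card P.join = 3 * k := by
      rw [card_join_triples P (fun b hb => (hP3 b hb).1), hPk]
    have hne : (m ::ₘ I) - P.join ≠ 0 := by
      intro h0
      have h1 := Multiset.card_sub hPle
      rw [h0, Multiset.card_cons, hcJ] at h1
      simp at h1
      omega
    obtain ⟨e, he⟩ := Multiset.exists_mem_of_ne_zero hne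
    have he_le : e ≤ m := by
      have h1 : e ∈ m ::ₘ I := Multiset.mem_of_le (Multiset.sub_le_self _ _) he
      rcases Multiset.mem_cons.mp h1 with h2 | h2
      · exact h2.le
      · exact hm e h2
    obtain ⟨b, hbP, hmb⟩ := Multiset.mem_join.mp hmJ
    have hjoin : P.join = b + (P.erase b).join := by
      conv_lhs => rw [← Multiset.cons_erase hbP]
      rw [Multiset.join_cons]
    refine ⟨(e ::ₘ b.erase m) ::ₘ P.erase b, ?_, ?_, ?_⟩
    · rw [Multiset.card_cons, Multiset.card_erase_of_mem hbP, ← hPk]
      have h1 : 0 < Multiset.card P := Multiset.card_pos_iff_exists_mem.mpr ⟨b, hbP⟩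
      simp only [Nat.pred_eq_sub_one]
      omega
    · intro b' hb'
      rcases Multiset.mem_cons.mp hb' with h1 | h1
      · subst h1
        obtain ⟨hb3, hbL⟩ := hP3 b hbP
        constructor
        · rw [Multiset.card_cons, Multiset.card_erase_of_mem hmb, hb3]; rfl
        · have h2 : b.sum = m + (b.erase m).sum := by
            conv_lhs => rw [← Multiset.cons_erase hmb]
            rw [Multiset.sum_cons]
          rw [Multiset.sum_cons]; omega
      · exact hP3 b' (Multiset.mem_of_mem_erase h1)
    · rw [Multiset.join_cons, Multiset.le_iff_count]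
      intro x
      have h1 := Multiset.le_iff_count.mp hPle x
      have h2 : Multiset.count e P.join + 1 ≤ Multiset.count e (m ::ₘ I) := by
        have h3 := Multiset.count_pos.mpr he
        rw [Multiset.count_sub] at h3
        omega
      have h3 : 1 ≤ Multiset.count m b := Multiset.count_pos.mpr hmb
      rw [hjoin] at h1 h2
      simp only [Multiset.count_add, Multiset.count_cons] at h1 h2 ⊢
      by_cases hxm : x = m
      · subst hxm
        rw [Multiset.count_erase_self]
        by_cases hxe : x = e
        · subst hxe
          simp only [if_true] at h1 h2 ⊢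
          omega
        · simp only [if_neg hxe, if_true] at h1 ⊢
          omega
      · rw [Multiset.count_erase_of_ne hxm]
        by_cases hxe : x = e
        · subst hxe
          simp only [if_true, if_neg hxm] at h1 h2 ⊢
          omega
        · simp only [if_neg hxe, if_neg hxm] at h1 ⊢
          omega
  · exact ⟨P, hPk, hP3, (Multiset.le_cons_of_notMem hmJ).mp hPle⟩

/-- Exchange lemma: if `k` disjoint fitting triples exist among the items of a list that is
sorted in decreasing order, they exist among its last items. -/
theorem hasTriples_small (L k : ℕ) (small : List ℕ) : ∀ big : List ℕ,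
    (big ++ small).Pairwise (· ≥ ·) → 3 * k ≤ small.length →
    HasTriples L k ((big ++ small : List ℕ) : Multiset ℕ) →
    HasTriples L k (small : Multiset ℕ) := by
  intro big
  induction big with
  | nil => intro _ _ h; simpa using h
  | cons m big ih =>
    intro hs hlen h
    have hs' := List.pairwise_cons.mp hs
    apply ih hs'.2 hlen
    apply hasTriples_drop_max L k m _ (fun x hx => hs'.1 x (by simpa using hx))
    · simp only [Multiset.coe_card, List.length_append]; omega
    · simpa using h

theorem card_mul_le (L : ℕ) (b : Multiset ℕ) (hq : ∀ a ∈ b, L < 4 * a) :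
    Multiset.card b * (L + 1) ≤ 4 * b.sum := by
  induction b using Multiset.induction_on with
  | empty => simp
  | cons a b ih =>
    have h1 := hq a (Multiset.mem_cons_self a b)
    have h2 := ih (fun a' ha' => hq a' (Multiset.mem_cons_of_mem ha'))
    rw [Multiset.card_cons, Multiset.sum_cons]
    have h3 : (Multiset.card b + 1) * (L + 1) = Multiset.card b * (L + 1) + (L + 1) := by ring
    omega

theorem card_le_three (L : ℕ) (b : Multiset ℕ) (hq : ∀ a ∈ b, L < 4 * a) (hb : b.sum ≤ L) :
    Multiset.card b ≤ 3 := by
  by_contra h
  have h4 : 4 ≤ Multiset.card b := by omega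
  have h1 := card_mul_le L b hq
  have h2 : 4 * (L + 1) ≤ Multiset.card b * (L + 1) := Nat.mul_le_mul_right _ h4
  omega

theorem card_join_le (P : Multiset (Multiset ℕ)) (h : ∀ b ∈ P, Multiset.card b ≤ 3) :
    Multiset.card P.join ≤ 2 * Multiset.card P
      + Multiset.card (P.filter (fun b => Multiset.card b = 3)) := by
  induction P using Multiset.induction_on with
  | empty => simp
  | cons b P ih =>
    have hb := h b (Multiset.mem_cons_self b P)
    have ih' := ih (fun b' hb' => h b' (Multiset.mem_cons_of_mem hb'))
    rw [Multiset.join_cons, Multiset.card_add, Multiset.card_cons]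
    by_cases h3 : Multiset.card b = 3
    · rw [Multiset.filter_cons_of_pos (p := fun b => Multiset.card b = 3) P h3,
        Multiset.card_cons]; omega
    · rw [Multiset.filter_cons_of_neg (p := fun b => Multiset.card b = 3) P h3]; omega

theorem exists_le_card (s : Multiset (Multiset ℕ)) (k : ℕ) (hk : k ≤ Multiset.card s) :
    ∃ t ≤ s, Multiset.card t = k := by
  refine ⟨((s.toList.take k : List (Multiset ℕ)) : Multiset (Multiset ℕ)), ?_, ?_⟩
  · conv_rhs => rw [← Multiset.coe_toList s]
    exact Multiset.coe_le.mpr (List.take_sublist k s.toList).subperm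
  · rw [Multiset.coe_card, List.length_take, Multiset.length_toList]
    omega

theorem join_le_join {s t : Multiset (Multiset ℕ)} (h : s ≤ t) : s.join ≤ t.join := by
  obtain ⟨u, rfl⟩ := Multiset.le_iff_exists_add.mp h
  rw [Multiset.join_add]
  exact Multiset.le_add_right _ _

/-- If all items are larger than `L / 4` and the `3 * k` smallest items cannot be partitioned
into `k` triples of total size at most `L`, then the `n = |big| + 3 * k` items cannot be
packed into `K` bins as soon as `n - 2 * K ≥ k`. -/
theorem no_packing23 (L K k fuel : ℕ) (big small : List ℕ)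
    (hsorted : (big ++ small).Pairwise (· ≥ ·))
    (hquarter : ∀ a ∈ big ++ small, L < 4 * a)
    (hlen : small.length = 3 * k) (hk : 2 * K ≤ big.length + 2 * k)
    (hsearch : part3 L fuel small (k * L - small.sum) = false)
    (P : Multiset (Multiset ℕ)) (hP : P.join = ((big ++ small : List ℕ) : Multiset ℕ))
    (hb : ∀ b ∈ P, b.sum ≤ L) : K + 1 ≤ Multiset.card P := by
  by_contra hlt
  have hle : Multiset.card P ≤ K := by omega
  have h3 : ∀ b ∈ P, Multiset.card b ≤ 3 := by
    intro b hbP
    apply card_le_three L b _ (hb b hbP)
    intro a ha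
    apply hquarter a
    have : a ∈ P.join := Multiset.mem_join.mpr ⟨b, hbP, ha⟩
    rw [hP] at this
    simpa using this
  have h4 := card_join_le P h3
  have h5 : Multiset.card P.join = big.length + small.length := by
    rw [hP]; simp
  have h6 : k ≤ Multiset.card (P.filter (fun b => Multiset.card b = 3)) := by omega
  obtain ⟨Q, hQle, hQk⟩ := exists_le_card _ k h6
  have hQP : Q ≤ P := le_trans hQle (Multiset.filter_le _ _)
  have hT : HasTriples L k ((big ++ small : List ℕ) : Multiset ℕ) := by
    refine ⟨Q, hQk, ?_, ?_⟩
    · intro b hbQ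
      have h7 : b ∈ P.filter (fun b => Multiset.card b = 3) := Multiset.mem_of_le hQle hbQ
      exact ⟨(Multiset.mem_filter.mp h7).2, hb b (Multiset.mem_of_le hQP hbQ)⟩
    · rw [← hP]; exact join_le_join hQP
  obtain ⟨R, hRk, hR3, hRle⟩ := hasTriples_small L k small big hsorted (by omega) hT
  have hRcard : Multiset.card R.join = 3 * k := by
    rw [card_join_triples R (fun b hb => (hR3 b hb).1), hRk]
  have hReq : R.join = (small : Multiset ℕ) :=
    Multiset.eq_of_le_of_card_le hRle (by rw [hRcard]; simp [hlen])
  have hsm : small.Pairwise (· ≥ ·) := hsorted.sublist (List.sublist_append_right big small)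
  have h8 := part3_complete L fuel small (k * L - small.sum) hsm
    ⟨R, hReq, hR3, by rw [hRk]; omega⟩
  rw [hsearch] at h8
  exact Bool.false_ne_true h8

/-- the item types `(a, 1)` of a plain list of items -/
def singles (l : List ℕ) : List (ℕ × ℕ) := l.map (fun a => (a, 1))

theorem expand_singles (l : List ℕ) : expand (singles l) = (l : Multiset ℕ) := by
  induction l with
  | nil => simp [singles, expand]
  | cons a l ih =>
    have h1 : singles (a :: l) = (a, 1) :: singles l := rfl
    rw [h1, expand_cons, ih]
    simp

/-- `opt_lower` with an abstract hypothesis that no packing into `K` bins exists. -/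
theorem opt_lower_of (L K : ℕ) (hL : 0 < L) (T : List (ℕ × ℕ))
    (hT : ∀ a ∈ expand T, 0 < a ∧ a ≤ L)
    (hno : ∀ P : Multiset (Multiset ℕ), P.join = expand T → (∀ b ∈ P, b.sum ≤ L) →
      K + 1 ≤ Multiset.card P) : K + 1 ≤ opt (inst L T) := by
  have hL' : (0 : ℚ) < L := by exact_mod_cast hL
  have hL0 : (L : ℚ) ≠ 0 := hL'.ne'
  unfold opt
  apply le_csInf
  · refine ⟨_, (inst L T).map (fun q => ({q} : Multiset ℚ)), ⟨?_, ?_⟩, rfl⟩
    · have := Multiset.bind_singleton (inst L T) (fun q => q)
      simpa [Multiset.bind] using this
    · intro b hb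
      obtain ⟨q, hq, rfl⟩ := Multiset.mem_map.mp hb
      simpa using (inst_size L hL T hT q hq).2
  · rintro k ⟨P, ⟨hP, hb⟩, rfl⟩
    set psi : ℚ → ℕ := fun q => ⌊q * L⌋₊ with hpsi
    have hpsiphi : ∀ a : ℕ, psi ((a : ℚ) / L) = a := by
      intro a
      simp only [hpsi]
      rw [div_mul_cancel₀ _ hL0]
      exact Nat.floor_natCast a
    have hjoin : (P.map (Multiset.map psi)).join = expand T := by
      rw [← Multiset.map_join, hP, inst, Multiset.map_map]
      have : (psi ∘ fun a : ℕ => (a : ℚ) / L) = id := by
        funext a; exact hpsiphi a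
      rw [this, Multiset.map_id]
    have hbins : ∀ b' ∈ P.map (Multiset.map psi), b'.sum ≤ L := by
      intro b' hb'
      obtain ⟨b, hbP, rfl⟩ := Multiset.mem_map.mp hb'
      have hsum : ((b.map psi).sum : ℚ) = b.sum * L := by
        rw [Nat.cast_multiset_sum, Multiset.map_map]
        have h2 : (b.map (fun q : ℚ => q * (L : ℚ))).sum = b.sum * L := by
          rw [Multiset.sum_map_mul_right]; simp
        rw [← h2]
        apply congrArg
        apply Multiset.map_congr rfl
        intro q hq
        have hqI : q ∈ inst L T := by
          rw [← hP]; exact Multiset.mem_join.mpr ⟨b, hbP, hq⟩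
        obtain ⟨a, _, rfl⟩ := Multiset.mem_map.mp hqI
        simp only [Function.comp]
        rw [hpsiphi a, div_mul_cancel₀ _ hL0]
      have h1 : ((b.map psi).sum : ℚ) ≤ L := by
        rw [hsum]
        calc b.sum * (L : ℚ) ≤ 1 * L := mul_le_mul_of_nonneg_right (hb b hbP) hL'.le
          _ = L := one_mul _
      exact_mod_cast h1
    have := hno (P.map (Multiset.map psi)) hjoin hbins
    simpa using this

/-- Certificate theorem for instances all of whose items are larger than a quarter of the bin
capacity `L`.  The items are `big ++ small`, in decreasing order, `small` being the `3 * k`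
smallest ones; `sol` is a fractional solution (patterns with weights `numerator / D`). -/
theorem gap_certificate23 (L K k fuel D : ℕ) (hL : 0 < L) (hD : 0 < D) (big small : List ℕ)
    (sol : List (List ℕ × ℕ))
    (hsorted : (big ++ small).Pairwise (· ≥ ·))
    (hquarter : ∀ a ∈ big ++ small, L < 4 * a ∧ a ≤ L)
    (hlen : small.length = 3 * k) (hk : 2 * K ≤ big.length + 2 * k)
    (hsearch : part3 L fuel small (k * L - small.sum) = false)
    (hcfg : ∀ p ∈ sol, (∀ a ∈ p.1, a ∈ big ++ small) ∧ p.1.sum ≤ L)
    (hcov : ∀ a ∈ big ++ small,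
      D * (big ++ small).count a ≤ (sol.map (fun p => p.1.count a * p.2)).sum) :
    (∀ q ∈ inst L (singles (big ++ small)), 0 < q ∧ q ≤ 1) ∧
      ((K : ℝ) + 1 - (((sol.map Prod.snd).sum : ℕ) : ℝ) / D
        ≤ (opt (inst L (singles (big ++ small))) : ℝ) - lp (inst L (singles (big ++ small)))) := by
  have hex := expand_singles (big ++ small)
  have hT : ∀ a ∈ expand (singles (big ++ small)), 0 < a ∧ a ≤ L := by
    intro a ha
    rw [hex] at ha
    have ha' : a ∈ big ++ small := by simpa using ha
    have h1 := hquarter a ha'
    exact ⟨by omega, h1.2⟩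
  refine ⟨inst_size L hL _ hT, ?_⟩
  have h1 : K + 1 ≤ opt (inst L (singles (big ++ small))) := by
    apply opt_lower_of L K hL _ hT
    intro P hP hb
    rw [hex] at hP
    exact no_packing23 L K k fuel big small hsorted (fun a ha => (hquarter a ha).1) hlen hk
      hsearch P hP hb
  have h2 := lp_upper L D hL hD (singles (big ++ small)) sol
    (by
      intro p hp
      obtain ⟨h3, h4⟩ := hcfg p hp
      refine ⟨fun a ha => ?_, h4⟩
      rw [hex]
      simpa using h3 a ha)
    (by
      intro a ha
      rw [hex] at ha ⊢
      have ha' : a ∈ big ++ small := by simpa using ha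
      simpa using hcov a ha')
  have h3 : ((K : ℝ) + 1) ≤ (opt (inst L (singles (big ++ small))) : ℝ) := by exact_mod_cast h1
  linarith

end Vale.Agent.Lib.P302
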