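import Mathlib
import Vale.Agent.Lib.P302.Defs
import Vale.Agent.Lib.P302.Check
import Vale.Agent.Lib.P302.Bridge
import Vale.Agent.Lib.P302.TwoThree

/-!
# A certificate for instances with `K` pairwise incompatible big items

The items are `bigs ++ guests`.  Every big item has size at least `L / 2`, at most one of them
has size exactly `L / 2`, so two big items never share a bin.  Every guest is smaller than
`L / 2` and larger than `L / 6`, so a bin with a big item holds at most two guests.  Hence a
packing into `K = |bigs|` bins has exactly one big item and at most two guests in every bin.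
Padding every bin with items of size `0` to exactly three items gives a partition of the list
`bigs ++ guests ++ [0, ..., 0]` (with `2 * K - |guests|` zeros) into `K` triples of total size
at most `L`; the exhaustive search `part3` decides that no such partition exists.
-/

namespace Vale.Agent.Lib.P302

theorem sum_map_le_card {α : Type*} (P : Multiset α) (f : α → ℕ) (h : ∀ b ∈ P, f b ≤ 1) :
    (P.map f).sum ≤ Multiset.card P := by
  induction P using Multiset.induction_on with
  | empty => simp
  | cons b P ih =>
    have h1 := h b (Multiset.mem_cons_self b P)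
    have h2 := ih (fun b' hb' => h b' (Multiset.mem_cons_of_mem hb'))
    rw [Multiset.map_cons, Multiset.sum_cons, Multiset.card_cons]
    omega

theorem eq_one_of_sum_map_eq_card {α : Type*} (P : Multiset α) (f : α → ℕ)
    (h : ∀ b ∈ P, f b ≤ 1) (hs : Multiset.card P ≤ (P.map f).sum) : ∀ b ∈ P, f b = 1 := by
  induction P using Multiset.induction_on with
  | empty => intro b hb; simp at hb
  | cons a P ih =>
    have h1 := h a (Multiset.mem_cons_self a P)
    have h2 := sum_map_le_card P f (fun b' hb' => h b' (Multiset.mem_cons_of_mem hb'))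
    rw [Multiset.map_cons, Multiset.sum_cons, Multiset.card_cons] at hs
    intro b hb
    rcases Multiset.mem_cons.mp hb with rfl | hb'
    · omega
    · exact ih (fun b' hb' => h b' (Multiset.mem_cons_of_mem hb')) (by omega) b hb'

theorem card_filter_join (p : ℕ → Prop) [DecidablePred p] (P : Multiset (Multiset ℕ)) :
    Multiset.card (P.join.filter p) = (P.map (fun b => Multiset.card (b.filter p))).sum := by
  induction P using Multiset.induction_on with
  | empty => simp
  | cons b P ih =>
    rw [Multiset.join_cons, Multiset.filter_add, Multiset.card_add, ih, Multiset.map_cons,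
      Multiset.sum_cons]

theorem le_join_of_mem (P : Multiset (Multiset ℕ)) (b : Multiset ℕ) (hb : b ∈ P) :
    b ≤ P.join := by
  obtain ⟨Q, rfl⟩ := Multiset.exists_cons_of_mem hb
  rw [Multiset.join_cons]
  exact Multiset.le_add_right _ _

theorem card_mul_le_six (L : ℕ) (b : Multiset ℕ) (hq : ∀ a ∈ b, L < 6 * a) :
    Multiset.card b * (L + 1) ≤ 6 * b.sum := by
  induction b using Multiset.induction_on with
  | empty => simp
  | cons a b ih =>
    have h1 := hq a (Multiset.mem_cons_self a b)
    have h2 := ih (fun a' ha' => hq a' (Multiset.mem_cons_of_mem ha'))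
    rw [Multiset.card_cons, Multiset.sum_cons]
    have h3 : (Multiset.card b + 1) * (L + 1) = Multiset.card b * (L + 1) + (L + 1) := by ring
    omega

/-- pad a bin with zeros to three items -/
def pad3 (b : Multiset ℕ) : Multiset ℕ := b + Multiset.replicate (3 - Multiset.card b) 0

theorem join_map_pad3 (P : Multiset (Multiset ℕ)) :
    (P.map pad3).join
      = P.join + Multiset.replicate ((P.map (fun b => 3 - Multiset.card b)).sum) 0 := by
  induction P using Multiset.induction_on with
  | empty => simp
  | cons b P ih =>
    rw [Multiset.map_cons, Multiset.join_cons, ih, Multiset.join_cons, Multiset.map_cons,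
      Multiset.sum_cons, Multiset.replicate_add, pad3]
    abel

theorem sum_pad_add_card (P : Multiset (Multiset ℕ)) (h : ∀ b ∈ P, Multiset.card b ≤ 3) :
    (P.map (fun b => 3 - Multiset.card b)).sum + Multiset.card P.join
      = 3 * Multiset.card P := by
  induction P using Multiset.induction_on with
  | empty => simp
  | cons b P ih =>
    have h1 := h b (Multiset.mem_cons_self b P)
    have h2 := ih (fun b' hb' => h b' (Multiset.mem_cons_of_mem hb'))
    rw [Multiset.map_cons, Multiset.sum_cons, Multiset.join_cons, Multiset.card_add,
      Multiset.card_cons]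
    omega

/-- If the big items are pairwise incompatible and every guest is larger than `L / 6`, and the
padded list cannot be partitioned into `K` fitting triples, then there is no packing into
`K` bins. -/
theorem no_packing_pad (L K fuel : ℕ) (bigs guests : List ℕ)
    (hbig : ∀ b ∈ bigs, L ≤ 2 * b)
    (htop : (bigs.filter (fun b => 2 * b = L)).length ≤ 1)
    (hguest : ∀ g ∈ guests, L < 6 * g ∧ 2 * g < L)
    (hK : bigs.length = K)
    (hsorted : (bigs ++ guests ++ List.replicate (2 * K - guests.length) 0).Pairwise (· ≥ ·))
    (hsearch : part3 L fuel (bigs ++ guests ++ List.replicate (2 * K - guests.length) 0)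
      (K * L - (bigs ++ guests).sum) = false)
    (P : Multiset (Multiset ℕ)) (hP : P.join = ((bigs ++ guests : List ℕ) : Multiset ℕ))
    (hb : ∀ b ∈ P, b.sum ≤ L) : K + 1 ≤ Multiset.card P := by
  by_contra hlt
  have hle : Multiset.card P ≤ K := by omega
  -- the big items of the instance
  have hfb : (bigs ++ guests).filter (fun x => L ≤ 2 * x) = bigs := by
    rw [List.filter_append]
    have h1 : bigs.filter (fun x => L ≤ 2 * x) = bigs := by
      rw [List.filter_eq_self]
      intro a ha
      simpa using hbig a ha
    have h2 : guests.filter (fun x => L ≤ 2 * x) = [] := by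
      rw [List.filter_eq_nil_iff]
      intro a ha
      have := (hguest a ha).2
      simp only [decide_eq_true_eq]
      omega
    rw [h1, h2, List.append_nil]
  have hft : (bigs ++ guests).filter (fun x => 2 * x = L) = bigs.filter (fun x => 2 * x = L) := by
    rw [List.filter_append]
    have h2 : guests.filter (fun x => 2 * x = L) = [] := by
      rw [List.filter_eq_nil_iff]
      intro a ha
      have := (hguest a ha).2
      simp only [decide_eq_true_eq]
      omega
    rw [h2, List.append_nil]
  have hmemJ : ∀ b ∈ P, ∀ x ∈ b, x ∈ bigs ++ guests := by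
    intro b hbP x hx
    have : x ∈ P.join := Multiset.mem_join.mpr ⟨b, hbP, hx⟩
    rw [hP] at this
    simpa using this
  -- every bin holds at most one big item
  have hone : ∀ b ∈ P, Multiset.card (b.filter (fun x => L ≤ 2 * x)) ≤ 1 := by
    intro b hbP
    by_contra hcon
    have h2 : 2 ≤ Multiset.card (b.filter (fun x => L ≤ 2 * x)) := by omega
    have hne : b.filter (fun x => L ≤ 2 * x) ≠ 0 := by
      intro h0; rw [h0] at h2; simp at h2
    obtain ⟨x, hx⟩ := Multiset.exists_mem_of_ne_zero hne
    obtain ⟨B1, hB1⟩ := Multiset.exists_cons_of_mem hx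
    have hne1 : B1 ≠ 0 := by
      intro h0; rw [hB1, h0] at h2; simp at h2
    obtain ⟨y, hy⟩ := Multiset.exists_mem_of_ne_zero hne1
    obtain ⟨B2, hB2⟩ := Multiset.exists_cons_of_mem hy
    have hxb : L ≤ 2 * x := (Multiset.mem_filter.mp hx).2
    have hyb : L ≤ 2 * y := by
      have : y ∈ b.filter (fun x => L ≤ 2 * x) := by
        rw [hB1]; exact Multiset.mem_cons_of_mem hy
      exact (Multiset.mem_filter.mp this).2
    have hsum : x + y ≤ L := by
      have h3 : (b.filter (fun x => L ≤ 2 * x)).sum ≤ b.sum := by
        have hsplit := Multiset.filter_add_not (fun x => L ≤ 2 * x) b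
        conv_rhs => rw [← hsplit]
        rw [Multiset.sum_add]
        exact Nat.le_add_right _ _
      have h4 : (b.filter (fun x => L ≤ 2 * x)).sum = x + (y + B2.sum) := by
        rw [hB1, hB2, Multiset.sum_cons, Multiset.sum_cons]
      have h5 := hb b hbP
      omega
    have hxt : 2 * x = L := by omega
    have hyt : 2 * y = L := by omega
    -- both are tops of the bin, hence of the instance
    have h6 : x ::ₘ y ::ₘ 0 ≤ P.join.filter (fun x => 2 * x = L) := by
      have h7 : x ::ₘ y ::ₘ B2 ≤ b := by
        rw [← hB2, ← hB1]; exact Multiset.filter_le _ _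
      have h8 : x ::ₘ y ::ₘ 0 ≤ b := le_trans (by
        rw [Multiset.cons_le_cons_iff, Multiset.cons_le_cons_iff]; exact Multiset.zero_le _) h7
      have h9 : x ::ₘ y ::ₘ 0 ≤ P.join := le_trans h8 (le_join_of_mem P b hbP)
      have h10 : (x ::ₘ y ::ₘ 0).filter (fun x => 2 * x = L) = x ::ₘ y ::ₘ 0 := by
        rw [Multiset.filter_eq_self]
        intro a ha
        simp only [Multiset.mem_cons, Multiset.notMem_zero, or_false] at ha
        rcases ha with rfl | rfl
        · exact hxt
        · exact hyt
      rw [← h10]
      exact Multiset.filter_le_filter _ h9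
    have h11 := Multiset.card_le_card h6
    rw [hP, Multiset.filter_coe, hft] at h11
    simp at h11
    omega
  -- counting the big items
  have hcount : (P.map (fun b => Multiset.card (b.filter (fun x => L ≤ 2 * x)))).sum = K := by
    rw [← card_filter_join, hP, Multiset.filter_coe, hfb]
    simpa using hK
  have hcard : Multiset.card P = K := by
    have := sum_map_le_card P _ hone
    omega
  have hexact : ∀ b ∈ P, Multiset.card (b.filter (fun x => L ≤ 2 * x)) = 1 :=
    eq_one_of_sum_map_eq_card P _ hone (by omega)
  -- every bin holds at most three items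
  have h3 : ∀ b ∈ P, Multiset.card b ≤ 3 := by
    intro b hbP
    have hsplit := Multiset.filter_add_not (fun x => L ≤ 2 * x) b
    have hc : Multiset.card b = Multiset.card (b.filter (fun x => L ≤ 2 * x))
        + Multiset.card (b.filter (fun x => ¬ L ≤ 2 * x)) := by
      conv_lhs => rw [← hsplit]
      rw [Multiset.card_add]
    have hs : b.sum = (b.filter (fun x => L ≤ 2 * x)).sum
        + (b.filter (fun x => ¬ L ≤ 2 * x)).sum := by
      conv_lhs => rw [← hsplit]
      rw [Multiset.sum_add]
    have h1 := hexact b hbP
    obtain ⟨y, hy⟩ := Multiset.card_eq_one.mp h1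
    have hyb : L ≤ 2 * y := by
      have : y ∈ b.filter (fun x => L ≤ 2 * x) := by rw [hy]; simp
      exact (Multiset.mem_filter.mp this).2
    have hg : ∀ a ∈ b.filter (fun x => ¬ L ≤ 2 * x), L < 6 * a := by
      intro a ha
      obtain ⟨hab, hnb⟩ := Multiset.mem_filter.mp ha
      have hmem := hmemJ b hbP a hab
      rcases List.mem_append.mp hmem with h | h
      · exact absurd (hbig a h) hnb
      · exact (hguest a h).1
    have h6 := card_mul_le_six L _ hg
    have h7 := hb b hbP
    rw [hs, hy, Multiset.sum_singleton] at h7
    by_contra hcon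
    have h8 : 3 ≤ Multiset.card (b.filter (fun x => ¬ L ≤ 2 * x)) := by omega
    have h9 : 3 * (L + 1) ≤ Multiset.card (b.filter (fun x => ¬ L ≤ 2 * x)) * (L + 1) :=
      Nat.mul_le_mul_right _ h8
    omega
  -- pad the bins
  have hjoin : (P.map pad3).join
      = ((bigs ++ guests ++ List.replicate (2 * K - guests.length) 0 : List ℕ) : Multiset ℕ) := by
    rw [join_map_pad3, hP]
    have h1 := sum_pad_add_card P h3
    have h2 : Multiset.card P.join = bigs.length + guests.length := by rw [hP]; simp
    have h4 : (P.map (fun b => 3 - Multiset.card b)).sum = 2 * K - guests.length := by omega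
    rw [h4, ← Multiset.coe_replicate, Multiset.coe_add]
  have htrip : ∀ b ∈ P.map pad3, Multiset.card b = 3 ∧ b.sum ≤ L := by
    intro b' hb'
    obtain ⟨b, hbP, rfl⟩ := Multiset.mem_map.mp hb'
    have h1 := h3 b hbP
    refine ⟨?_, ?_⟩
    · rw [pad3, Multiset.card_add, Multiset.card_replicate]; omega
    · rw [pad3, Multiset.sum_add, Multiset.sum_replicate]
      simpa using hb b hbP
  have hsum : (bigs ++ guests ++ List.replicate (2 * K - guests.length) 0).sum
      = (bigs ++ guests).sum := by
    rw [List.sum_append, List.sum_replicate]; simp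
  have h8 := part3_complete L fuel _ (K * L - (bigs ++ guests).sum) hsorted
    ⟨P.map pad3, hjoin, htrip, by rw [Multiset.card_map, hcard, hsum]; omega⟩
  rw [hsearch] at h8
  exact Bool.false_ne_true h8

/-- Certificate theorem for instances with `K` pairwise incompatible big items (`bigs`) and
guests larger than `L / 6`; `sol` is a fractional solution (patterns with weights
`numerator / D`). -/
theorem gap_certificate_pad (L K fuel D : ℕ) (hL : 0 < L) (hD : 0 < D) (bigs guests : List ℕ)
    (sol : List (List ℕ × ℕ))
    (hbig : ∀ b ∈ bigs, L ≤ 2 * b ∧ b ≤ L)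
    (htop : (bigs.filter (fun b => 2 * b = L)).length ≤ 1)
    (hguest : ∀ g ∈ guests, L < 6 * g ∧ 2 * g < L)
    (hK : bigs.length = K)
    (hsorted : (bigs ++ guests ++ List.replicate (2 * K - guests.length) 0).Pairwise (· ≥ ·))
    (hsearch : part3 L fuel (bigs ++ guests ++ List.replicate (2 * K - guests.length) 0)
      (K * L - (bigs ++ guests).sum) = false)
    (hcfg : ∀ p ∈ sol, (∀ a ∈ p.1, a ∈ bigs ++ guests) ∧ p.1.sum ≤ L)
    (hcov : ∀ a ∈ bigs ++ guests,
      D * (bigs ++ guests).count a ≤ (sol.map (fun p => p.1.count a * p.2)).sum) :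
    (∀ q ∈ inst L (singles (bigs ++ guests)), 0 < q ∧ q ≤ 1) ∧
      ((K : ℝ) + 1 - (((sol.map Prod.snd).sum : ℕ) : ℝ) / D
        ≤ (opt (inst L (singles (bigs ++ guests))) : ℝ)
          - lp (inst L (singles (bigs ++ guests)))) := by
  have hex := expand_singles (bigs ++ guests)
  have hT : ∀ a ∈ expand (singles (bigs ++ guests)), 0 < a ∧ a ≤ L := by
    intro a ha
    rw [hex] at ha
    have ha' : a ∈ bigs ++ guests := by simpa using ha
    rcases List.mem_append.mp ha' with h | h
    · have h1 := hbig a h
      exact ⟨by omega, h1.2⟩
    · have h1 := hguest a h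
      exact ⟨by omega, by omega⟩
  refine ⟨inst_size L hL _ hT, ?_⟩
  have h1 : K + 1 ≤ opt (inst L (singles (bigs ++ guests))) := by
    apply opt_lower_of L K hL _ hT
    intro P hP hb
    rw [hex] at hP
    exact no_packing_pad L K fuel bigs guests (fun b hb' => (hbig b hb').1) htop hguest hK
      hsorted hsearch P hP hb
  have h2 := lp_upper L D hL hD (singles (bigs ++ guests)) sol
    (by
      intro p hp
      obtain ⟨h3, h4⟩ := hcfg p hp
      refine ⟨fun a ha => ?_, h4⟩
      rw [hex]
      simpa using h3 a ha)
    (by
      intro a ha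
      rw [hex] at ha ⊢
      have ha' : a ∈ bigs ++ guests := by simpa using ha
      simpa using hcov a ha')
  have h3 : ((K : ℝ) + 1) ≤ (opt (inst L (singles (bigs ++ guests))) : ℝ) := by exact_mod_cast h1
  linarith

end Vale.Agent.Lib.P302
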