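import Mathlib
import Vale.Agent.Lib.P302.Defs
import Vale.Agent.Lib.P302.Check
import Vale.Agent.Lib.P302.Bridge
import Vale.Agent.Lib.P302.TwoThree
import Vale.Agent.Lib.P302.PadBig

/-!
# A certificate for instances made of hosts, a frame and guests

The items are `hosts ++ frame ++ guests`.  Every host has size at least `hmin > L / 2`, so two
hosts never share a bin; a host and a frame item never share a bin (`hmin + t > L`, frame items
have size at least `t`); a host and three guests never share a bin (`hmin + 3 * gmin > L`).
Hence, in a packing into `m + r` bins (`m` the number of hosts), exactly `m` bins hold a host,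
and these hold the host and at most two guests; the other at most `r` bins hold all frame items.
The generic search certifies that the frame items together with `3 * q + 1` items of size
`gmin` cannot be packed into `r` bins, so the host-free bins hold at most `3 * q` guests.
Padding with items of size `0` gives a partition of `hosts ++ guests ++ [0, ..., 0]` into
`m + q` triples of total size at most `L` each (any three guests fit into a bin), and the
exhaustive search `part3` decides that no such partition exists.
-/

namespace Vale.Agent.Lib.P302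

theorem card_mul_le_sum (g : ℕ) (s : Multiset ℕ) (h : ∀ x ∈ s, g ≤ x) :
    Multiset.card s * g ≤ s.sum := by
  induction s using Multiset.induction_on with
  | empty => simp
  | cons a s ih =>
    have h1 := h a (Multiset.mem_cons_self a s)
    have h2 := ih (fun x hx => h x (Multiset.mem_cons_of_mem hx))
    rw [Multiset.card_cons, Multiset.sum_cons]
    have : (Multiset.card s + 1) * g = Multiset.card s * g + g := by ring
    omega

theorem sum_filter_add (p : ℕ → Prop) [DecidablePred p] (b : Multiset ℕ) :
    b.sum = (b.filter p).sum + (b.filter (fun x => ¬ p x)).sum := by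
  conv_lhs => rw [← Multiset.filter_add_not p b]
  rw [Multiset.sum_add]

theorem card_filter_add (p : ℕ → Prop) [DecidablePred p] (b : Multiset ℕ) :
    Multiset.card b
      = Multiset.card (b.filter p) + Multiset.card (b.filter (fun x => ¬ p x)) := by
  conv_lhs => rw [← Multiset.filter_add_not p b]
  rw [Multiset.card_add]

theorem expand_append (T1 T2 : List (ℕ × ℕ)) : expand (T1 ++ T2) = expand T1 + expand T2 := by
  simp [expand]

theorem sum_map_eq_card_filter {α : Type*} (P : Multiset α) (f : α → ℕ)
    (h : ∀ b ∈ P, f b ≤ 1) :
    (P.map f).sum = Multiset.card (P.filter (fun b => f b = 1)) := by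
  induction P using Multiset.induction_on with
  | empty => simp
  | cons b P ih =>
    have h1 := h b (Multiset.mem_cons_self b P)
    have h2 := ih (fun b' hb' => h b' (Multiset.mem_cons_of_mem hb'))
    rw [Multiset.map_cons, Multiset.sum_cons, h2]
    by_cases hb : f b = 1
    · rw [Multiset.filter_cons_of_pos (p := fun b => f b = 1) P hb, Multiset.card_cons]; omega
    · rw [Multiset.filter_cons_of_neg (p := fun b => f b = 1) P hb]; omega

/-- Replace the items smaller than `t` of a packing by `n` items of size `gmin` (a lower bound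
for these items), `n` at most their number. -/
theorem shrink_bins (L t gmin : ℕ) : ∀ (P : Multiset (Multiset ℕ)) (n : ℕ),
    (∀ b ∈ P, b.sum ≤ L) →
    (∀ b ∈ P, ∀ x ∈ b, x < t → gmin ≤ x) →
    n ≤ Multiset.card (P.join.filter (fun x => x < t)) →
    ∃ P' : Multiset (Multiset ℕ), Multiset.card P' = Multiset.card P ∧
      P'.join = P.join.filter (fun x => ¬ x < t) + Multiset.replicate n gmin ∧
      ∀ b ∈ P', b.sum ≤ L := by
  intro P
  induction P using Multiset.induction_on with
  | empty =>
    intro n _ _ hn
    have hn0 : n = 0 := by simpa using hn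
    subst hn0
    exact ⟨0, by simp, by simp, by simp⟩
  | cons b P ih =>
    intro n hb hg hn
    have hb1 := hb b (Multiset.mem_cons_self b P)
    have hg1 : ∀ x ∈ b.filter (fun x => x < t), gmin ≤ x := by
      intro x hx
      obtain ⟨hxb, hxt⟩ := Multiset.mem_filter.mp hx
      exact hg b (Multiset.mem_cons_self b P) x hxb hxt
    have hsum1 := card_mul_le_sum gmin _ hg1
    have hs := sum_filter_add (fun x => x < t) b
    rw [Multiset.join_cons, Multiset.filter_add, Multiset.card_add] at hn
    obtain ⟨j, hj1, hj2, hj3⟩ : ∃ j, j ≤ n ∧ j ≤ Multiset.card (b.filter (fun x => x < t)) ∧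
        n - j ≤ Multiset.card (P.join.filter (fun x => x < t)) := by
      by_cases hnk : n ≤ Multiset.card (b.filter (fun x => x < t))
      · exact ⟨n, le_refl _, hnk, by omega⟩
      · exact ⟨_, by omega, le_refl _, by omega⟩
    obtain ⟨P'', hc, hjn, hb''⟩ := ih (n - j)
      (fun b' hb' => hb b' (Multiset.mem_cons_of_mem hb'))
      (fun b' hb' => hg b' (Multiset.mem_cons_of_mem hb')) hj3
    refine ⟨(b.filter (fun x => ¬ x < t) + Multiset.replicate j gmin) ::ₘ P'', ?_, ?_, ?_⟩
    · simp [hc]
    · rw [Multiset.join_cons, hjn, Multiset.join_cons, Multiset.filter_add]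
      have hrep : Multiset.replicate n gmin
          = Multiset.replicate j gmin + Multiset.replicate (n - j) gmin := by
        rw [← Multiset.replicate_add]
        congr 1
        omega
      rw [hrep]
      abel
    · intro b' hb'
      rcases Multiset.mem_cons.mp hb' with rfl | hb'
      · rw [Multiset.sum_add, Multiset.sum_replicate, smul_eq_mul]
        have hmul : j * gmin ≤ Multiset.card (b.filter (fun x => x < t)) * gmin :=
          Nat.mul_le_mul_right _ hj2
        omega
      · exact hb'' b' hb'

/-- If the frame items together with `Q + 1` items of size `gmin` cannot be packed into `r`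
bins, then `r` bins that hold the frame items hold at most `Q` further items of size at least
`gmin`. -/
theorem frame_bound (L r t gmin Q fuel : ℕ) (frame : List ℕ)
    (hfr : ∀ f ∈ frame, t ≤ f)
    (hs : search L fuel (singles frame ++ [(gmin, Q + 1)])
      (r * L - vol (singles frame ++ [(gmin, Q + 1)])) = false)
    (PF : Multiset (Multiset ℕ)) (S : Multiset ℕ)
    (hS : ∀ x ∈ S, gmin ≤ x ∧ x < t)
    (hjoin : PF.join = (frame : Multiset ℕ) + S) (hb : ∀ b ∈ PF, b.sum ≤ L)
    (hcard : Multiset.card PF ≤ r) : Multiset.card S ≤ Q := by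
  by_contra hcon
  have hQ : Q + 1 ≤ Multiset.card S := by omega
  have hf1 : (frame : Multiset ℕ).filter (fun x => x < t) = 0 := by
    rw [Multiset.filter_eq_nil]
    intro a ha
    have := hfr a (by simpa using ha)
    omega
  have hf2 : (frame : Multiset ℕ).filter (fun x => ¬ x < t) = (frame : Multiset ℕ) := by
    rw [Multiset.filter_eq_self]
    intro a ha
    have := hfr a (by simpa using ha)
    omega
  have hS1 : S.filter (fun x => x < t) = S := by
    rw [Multiset.filter_eq_self]
    intro a ha
    exact (hS a ha).2
  have hS2 : S.filter (fun x => ¬ x < t) = 0 := by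
    rw [Multiset.filter_eq_nil]
    intro a ha
    have := (hS a ha).2
    simpa using this
  have hfil1 : PF.join.filter (fun x => x < t) = S := by
    rw [hjoin, Multiset.filter_add, hf1, hS1, zero_add]
  have hfil2 : PF.join.filter (fun x => ¬ x < t) = (frame : Multiset ℕ) := by
    rw [hjoin, Multiset.filter_add, hf2, hS2, add_zero]
  obtain ⟨P', hc, hj, hb'⟩ := shrink_bins L t gmin PF (Q + 1) hb
    (by
      intro b hbP x hx hxt
      have hxj : x ∈ PF.join := Multiset.mem_join.mpr ⟨b, hbP, hx⟩
      rw [hjoin] at hxj
      rcases Multiset.mem_add.mp hxj with h | h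
      · have := hfr x (by simpa using h)
        omega
      · exact (hS x h).1)
    (by rw [hfil1]; exact hQ)
  rw [hfil2] at hj
  have hex : expand (singles frame ++ [(gmin, Q + 1)])
      = (frame : Multiset ℕ) + Multiset.replicate (Q + 1) gmin := by
    rw [expand_append, expand_singles]
    simp [expand]
  have h9 := no_packing L r fuel _ hs P' (by rw [hj, hex]) hb'
  omega

/-- A multiset of `3 * q` items of size at most `gmax` splits into `q` triples. -/
theorem exists_triples (L gmax : ℕ) (h5 : 3 * gmax ≤ L) : ∀ (q : ℕ) (S : Multiset ℕ),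
    Multiset.card S = 3 * q → (∀ x ∈ S, x ≤ gmax) →
    ∃ T : Multiset (Multiset ℕ), T.join = S ∧ Multiset.card T = q ∧
      ∀ b ∈ T, Multiset.card b = 3 ∧ b.sum ≤ L := by
  intro q
  induction q with
  | zero =>
    intro S hS _
    have hS0 : S = 0 := Multiset.card_eq_zero.mp (by simpa using hS)
    subst hS0
    exact ⟨0, by simp, by simp, by simp⟩
  | succ q ih =>
    intro S hS hle
    have hne : S ≠ 0 := by
      intro h0; rw [h0] at hS; simp at hS
    obtain ⟨a, ha⟩ := Multiset.exists_mem_of_ne_zero hne
    obtain ⟨S1, rfl⟩ := Multiset.exists_cons_of_mem ha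
    rw [Multiset.card_cons] at hS
    have hne1 : S1 ≠ 0 := by
      intro h0; rw [h0] at hS; simp at hS; omega
    obtain ⟨b, hb⟩ := Multiset.exists_mem_of_ne_zero hne1
    obtain ⟨S2, rfl⟩ := Multiset.exists_cons_of_mem hb
    rw [Multiset.card_cons] at hS
    have hne2 : S2 ≠ 0 := by
      intro h0; rw [h0] at hS; simp at hS; omega
    obtain ⟨c, hc⟩ := Multiset.exists_mem_of_ne_zero hne2
    obtain ⟨S3, rfl⟩ := Multiset.exists_cons_of_mem hc
    rw [Multiset.card_cons] at hS
    have hS3 : Multiset.card S3 = 3 * q := by omega
    have h1 := hle a (by simp)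
    have h2 := hle b (by simp)
    have h3 := hle c (by simp)
    obtain ⟨T, hT1, hT2, hT3⟩ := ih S3 hS3 (fun x hx => hle x (by simp [hx]))
    refine ⟨(a ::ₘ b ::ₘ c ::ₘ 0) ::ₘ T, ?_, ?_, ?_⟩
    · rw [Multiset.join_cons, hT1]
      simp
    · simp [hT2]
    · intro b' hb'
      rcases Multiset.mem_cons.mp hb' with rfl | hb'
      · refine ⟨by simp, ?_⟩
        simp only [Multiset.sum_cons, Multiset.sum_zero]
        omega
      · exact hT3 b' hb'

/-- Hosts, frame and guests: if the frame with `3 * q + 1` smallest guests does not fit into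
`r` bins and `hosts ++ guests ++ zeros` has no partition into `m + q` fitting triples, then
there is no packing into `m + r` bins. -/
theorem no_packing_frame (L m r q fuel fuel2 hmin t gmin gmax : ℕ)
    (hosts frame guests : List ℕ)
    (hhost : ∀ h ∈ hosts, hmin ≤ h)
    (hframe : ∀ f ∈ frame, t ≤ f ∧ f < hmin)
    (hguest : ∀ g ∈ guests, gmin ≤ g ∧ g ≤ gmax)
    (ht : t ≤ hmin) (h1 : L < 2 * hmin) (h2 : L < hmin + t) (h3 : L < hmin + 3 * gmin)
    (h4 : gmax < t) (h5 : 3 * gmax ≤ L)
    (hm : hosts.length = m)
    (hfs : search L fuel2 (singles frame ++ [(gmin, 3 * q + 1)])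
      (r * L - vol (singles frame ++ [(gmin, 3 * q + 1)])) = false)
    (hsorted : (hosts ++ guests
      ++ List.replicate (2 * m + 3 * q - guests.length) 0).Pairwise (· ≥ ·))
    (hsearch : part3 L fuel
      (hosts ++ guests ++ List.replicate (2 * m + 3 * q - guests.length) 0)
      ((m + q) * L - (hosts ++ guests).sum) = false)
    (P : Multiset (Multiset ℕ))
    (hP : P.join = ((hosts ++ frame ++ guests : List ℕ) : Multiset ℕ))
    (hb : ∀ b ∈ P, b.sum ≤ L) : m + r + 1 ≤ Multiset.card P := by
  by_contra hlt
  have hle : Multiset.card P ≤ m + r := by omega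
  have hPs : P.join = (hosts : Multiset ℕ) + (frame : Multiset ℕ) + (guests : Multiset ℕ) := by
    rw [hP, Multiset.coe_add, Multiset.coe_add]
  have hmemJ : ∀ b ∈ P, ∀ x ∈ b, x ∈ hosts ∨ x ∈ frame ∨ x ∈ guests := by
    intro b hbP x hx
    have hxj : x ∈ P.join := Multiset.mem_join.mpr ⟨b, hbP, hx⟩
    rw [hP] at hxj
    have : x ∈ hosts ++ frame ++ guests := by simpa using hxj
    rcases List.mem_append.mp this with h | h
    · rcases List.mem_append.mp h with h | h
      · exact Or.inl h
      · exact Or.inr (Or.inl h)
    · exact Or.inr (Or.inr h)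
  -- the filters of the instance
  have hJH : P.join.filter (fun x => hmin ≤ x) = (hosts : Multiset ℕ) := by
    rw [hPs, Multiset.filter_add, Multiset.filter_add]
    have e1 : (hosts : Multiset ℕ).filter (fun x => hmin ≤ x) = (hosts : Multiset ℕ) := by
      rw [Multiset.filter_eq_self]
      intro a ha
      exact hhost a (by simpa using ha)
    have e2 : (frame : Multiset ℕ).filter (fun x => hmin ≤ x) = 0 := by
      rw [Multiset.filter_eq_nil]
      intro a ha
      have := (hframe a (by simpa using ha)).2
      omega
    have e3 : (guests : Multiset ℕ).filter (fun x => hmin ≤ x) = 0 := by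
      rw [Multiset.filter_eq_nil]
      intro a ha
      have := (hguest a (by simpa using ha)).2
      omega
    rw [e1, e2, e3, add_zero, add_zero]
  have hJG : P.join.filter (fun x => x < t) = (guests : Multiset ℕ) := by
    rw [hPs, Multiset.filter_add, Multiset.filter_add]
    have e1 : (hosts : Multiset ℕ).filter (fun x => x < t) = 0 := by
      rw [Multiset.filter_eq_nil]
      intro a ha
      have := hhost a (by simpa using ha)
      omega
    have e2 : (frame : Multiset ℕ).filter (fun x => x < t) = 0 := by
      rw [Multiset.filter_eq_nil]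
      intro a ha
      have := (hframe a (by simpa using ha)).1
      omega
    have e3 : (guests : Multiset ℕ).filter (fun x => x < t) = (guests : Multiset ℕ) := by
      rw [Multiset.filter_eq_self]
      intro a ha
      have := (hguest a (by simpa using ha)).2
      omega
    rw [e1, e2, e3, zero_add, zero_add]
  have hJN : P.join.filter (fun x => ¬ x < t)
      = (hosts : Multiset ℕ) + (frame : Multiset ℕ) := by
    rw [hPs, Multiset.filter_add, Multiset.filter_add]
    have e1 : (hosts : Multiset ℕ).filter (fun x => ¬ x < t) = (hosts : Multiset ℕ) := by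
      rw [Multiset.filter_eq_self]
      intro a ha
      have := hhost a (by simpa using ha)
      omega
    have e2 : (frame : Multiset ℕ).filter (fun x => ¬ x < t) = (frame : Multiset ℕ) := by
      rw [Multiset.filter_eq_self]
      intro a ha
      have := (hframe a (by simpa using ha)).1
      omega
    have e3 : (guests : Multiset ℕ).filter (fun x => ¬ x < t) = 0 := by
      rw [Multiset.filter_eq_nil]
      intro a ha
      have := (hguest a (by simpa using ha)).2
      simp only [not_not]
      omega
    rw [e1, e2, e3, add_zero]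
  -- every bin holds at most one host
  have hone : ∀ b ∈ P, Multiset.card (b.filter (fun x => hmin ≤ x)) ≤ 1 := by
    intro b hbP
    by_contra hcon
    have h2' : 2 ≤ Multiset.card (b.filter (fun x => hmin ≤ x)) := by omega
    have hsum := card_mul_le_sum hmin (b.filter (fun x => hmin ≤ x))
      (fun x hx => (Multiset.mem_filter.mp hx).2)
    have hs := sum_filter_add (fun x => hmin ≤ x) b
    have hbL := hb b hbP
    have hmul : 2 * hmin ≤ Multiset.card (b.filter (fun x => hmin ≤ x)) * hmin :=
      Nat.mul_le_mul_right _ h2'
    omega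
  have hcount : (P.map (fun b => Multiset.card (b.filter (fun x => hmin ≤ x)))).sum = m := by
    rw [← card_filter_join, hJH]
    simpa using hm
  -- the bins with a host and the bins without
  set PH := P.filter (fun b => Multiset.card (b.filter (fun x => hmin ≤ x)) = 1) with hPH
  set PF := P.filter (fun b => ¬ Multiset.card (b.filter (fun x => hmin ≤ x)) = 1) with hPF
  have hsplitP : PH + PF = P := Multiset.filter_add_not _ P
  have hcardH : Multiset.card PH = m := by
    rw [hPH, ← sum_map_eq_card_filter P _ hone]
    exact hcount
  have hcardF : Multiset.card PF ≤ r := by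
    have : Multiset.card P = Multiset.card PH + Multiset.card PF := by
      rw [← hsplitP, Multiset.card_add]
    omega
  have hjoinP : P.join = PH.join + PF.join := by
    rw [← hsplitP, Multiset.join_add]
  -- bins with a host: the other items are at most two guests
  have hHbin : ∀ b ∈ PH, (∀ x ∈ b, ¬ hmin ≤ x → gmin ≤ x ∧ x < t) ∧ Multiset.card b ≤ 3 := by
    intro b hbH
    obtain ⟨hbP, hb1⟩ := Multiset.mem_filter.mp hbH
    obtain ⟨h, hh⟩ := Multiset.card_eq_one.mp hb1
    have hhm : hmin ≤ h := by
      have : h ∈ b.filter (fun x => hmin ≤ x) := by rw [hh]; simp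
      exact (Multiset.mem_filter.mp this).2
    have hs := sum_filter_add (fun x => hmin ≤ x) b
    rw [hh, Multiset.sum_singleton] at hs
    have hbL := hb b hbP
    have hrest : ∀ x ∈ b, ¬ hmin ≤ x → gmin ≤ x ∧ x < t := by
      intro x hx hxh
      have hxr : x ∈ b.filter (fun x => ¬ hmin ≤ x) := Multiset.mem_filter.mpr ⟨hx, hxh⟩
      have hxs : x ≤ (b.filter (fun x => ¬ hmin ≤ x)).sum := Multiset.le_sum_of_mem hxr
      have hxt : x < t := by omega
      refine ⟨?_, hxt⟩
      rcases hmemJ b hbP x hx with h' | h' | h'
      · exact absurd (hhost x h') hxh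
      · have := (hframe x h').1
        omega
      · exact (hguest x h').1
    refine ⟨hrest, ?_⟩
    have hc := card_filter_add (fun x => hmin ≤ x) b
    rw [hh, Multiset.card_singleton] at hc
    have hsum := card_mul_le_sum gmin (b.filter (fun x => ¬ hmin ≤ x))
      (fun x hx => (hrest x (Multiset.mem_filter.mp hx).1 (Multiset.mem_filter.mp hx).2).1)
    by_contra hcon
    have h8 : 3 ≤ Multiset.card (b.filter (fun x => ¬ hmin ≤ x)) := by omega
    have hmul : 3 * gmin ≤ Multiset.card (b.filter (fun x => ¬ hmin ≤ x)) * gmin :=
      Nat.mul_le_mul_right _ h8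
    omega
  -- bins without a host hold no host
  have hFH : PF.join.filter (fun x => hmin ≤ x) = 0 := by
    apply Multiset.card_eq_zero.mp
    rw [card_filter_join, Multiset.sum_eq_zero_iff]
    intro n hn
    obtain ⟨b, hbF, rfl⟩ := Multiset.mem_map.mp hn
    obtain ⟨hbP, hb1⟩ := Multiset.mem_filter.mp hbF
    have := hone b hbP
    omega
  have hHH : PH.join.filter (fun x => hmin ≤ x) = (hosts : Multiset ℕ) := by
    have h9 := hJH
    rw [hjoinP, Multiset.filter_add, hFH, add_zero] at h9
    exact h9
  have hHN : PH.join.filter (fun x => ¬ x < t) = (hosts : Multiset ℕ) := by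
    rw [← hHH]
    apply Multiset.filter_congr
    intro x hx
    obtain ⟨b, hbH, hxb⟩ := Multiset.mem_join.mp hx
    constructor
    · intro hxt
      by_contra hxh
      exact hxt ((hHbin b hbH).1 x hxb hxh).2
    · intro hxh
      omega
  have hFN : PF.join.filter (fun x => ¬ x < t) = (frame : Multiset ℕ) := by
    have h9 := hJN
    rw [hjoinP, Multiset.filter_add, hHN] at h9
    exact add_left_cancel h9
  have hGsplit : PH.join.filter (fun x => x < t) + PF.join.filter (fun x => x < t)
      = (guests : Multiset ℕ) := by
    rw [← Multiset.filter_add, ← hjoinP, hJG]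
  have hGmem : ∀ x ∈ PF.join.filter (fun x => x < t), gmin ≤ x ∧ x ≤ gmax := by
    intro x hx
    have hxg : x ∈ (guests : Multiset ℕ) := by
      rw [← hGsplit]
      exact Multiset.mem_add.mpr (Or.inr hx)
    exact hguest x (by simpa using hxg)
  -- the bins without a host hold at most `3 * q` guests
  have hFjoin : PF.join = (frame : Multiset ℕ) + PF.join.filter (fun x => x < t) := by
    conv_lhs => rw [← Multiset.filter_add_not (fun x => x < t) PF.join]
    rw [hFN, add_comm]
  have hSF : Multiset.card (PF.join.filter (fun x => x < t)) ≤ 3 * q :=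
    frame_bound L r t gmin (3 * q) fuel2 frame (fun f hf => (hframe f hf).1) hfs PF _
      (fun x hx => ⟨(hGmem x hx).1, (Multiset.mem_filter.mp hx).2⟩) hFjoin
      (fun b hbF => hb b (Multiset.mem_filter.mp hbF).1) hcardF
  -- the bins with a host, padded to triples
  have hHjoin : PH.join = (hosts : Multiset ℕ) + PH.join.filter (fun x => x < t) := by
    conv_lhs => rw [← Multiset.filter_add_not (fun x => x < t) PH.join]
    rw [hHN, add_comm]
  have hpadH := sum_pad_add_card PH (fun b hbH => (hHbin b hbH).2)
  have hcardHj : Multiset.card PH.join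
      = m + Multiset.card (PH.join.filter (fun x => x < t)) := by
    conv_lhs => rw [hHjoin]
    rw [Multiset.card_add]
    simp [hm]
  have hcardG : Multiset.card (PH.join.filter (fun x => x < t))
      + Multiset.card (PF.join.filter (fun x => x < t)) = guests.length := by
    rw [← Multiset.card_add, hGsplit]
    simp
  obtain ⟨TF, hTF1, hTF2, hTF3⟩ := exists_triples L gmax h5 q
    (PF.join.filter (fun x => x < t)
      + Multiset.replicate (3 * q - Multiset.card (PF.join.filter (fun x => x < t))) 0)
    (by rw [Multiset.card_add, Multiset.card_replicate]; omega)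
    (by
      intro x hx
      rcases Multiset.mem_add.mp hx with h | h
      · exact (hGmem x h).2
      · have := Multiset.eq_of_mem_replicate h
        omega)
  -- abstract the two multisets of guests
  obtain ⟨SH, hSH⟩ : ∃ SH, SH = PH.join.filter (fun x => x < t) := ⟨_, rfl⟩
  obtain ⟨SF, hSFd⟩ : ∃ SF, SF = PF.join.filter (fun x => x < t) := ⟨_, rfl⟩
  rw [← hSH] at hHjoin hcardHj hcardG hGsplit
  rw [← hSFd] at hTF1 hcardG hGsplit hSF
  have hjoin : (PH.map pad3 + TF).join = ((hosts ++ guests
      ++ List.replicate (2 * m + 3 * q - guests.length) 0 : List ℕ) : Multiset ℕ) := by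
    rw [Multiset.join_add, join_map_pad3, hTF1]
    have hz : (PH.map (fun b => 3 - Multiset.card b)).sum = 2 * m - Multiset.card SH := by
      omega
    rw [hz, hHjoin, ← Multiset.coe_add, ← Multiset.coe_add, Multiset.coe_replicate, ← hGsplit]
    have hrep : Multiset.replicate (2 * m + 3 * q - guests.length) 0
        = Multiset.replicate (2 * m - Multiset.card SH) 0
          + Multiset.replicate (3 * q - Multiset.card SF) 0 := by
      rw [← Multiset.replicate_add]
      congr 1
      omega
    rw [hrep]
    abel
  have htrip : ∀ b ∈ PH.map pad3 + TF, Multiset.card b = 3 ∧ b.sum ≤ L := by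
    intro b' hb'
    rcases Multiset.mem_add.mp hb' with h | h
    · obtain ⟨b, hbH, rfl⟩ := Multiset.mem_map.mp h
      have h1' := (hHbin b hbH).2
      refine ⟨?_, ?_⟩
      · rw [pad3, Multiset.card_add, Multiset.card_replicate]; omega
      · rw [pad3, Multiset.sum_add, Multiset.sum_replicate]
        simpa using hb b (Multiset.mem_filter.mp hbH).1
    · exact hTF3 b' h
  have hsum : (hosts ++ guests ++ List.replicate (2 * m + 3 * q - guests.length) 0).sum
      = (hosts ++ guests).sum := by
    rw [List.sum_append, List.sum_replicate]; simp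
  have h8 := part3_complete L fuel _ ((m + q) * L - (hosts ++ guests).sum) hsorted
    ⟨PH.map pad3 + TF, hjoin, htrip, by
      rw [Multiset.card_add, Multiset.card_map, hcardH, hTF2, hsum]; omega⟩
  rw [hsearch] at h8
  exact Bool.false_ne_true h8

/-- Certificate theorem for instances made of `m` hosts, a frame and guests (see the header);
`sol` is a fractional solution (patterns with weights `numerator / D`). -/
theorem gap_certificate_frame (L m r q fuel fuel2 hmin t gmin gmax D : ℕ) (hL : 0 < L)
    (hD : 0 < D) (hosts frame guests : List ℕ) (sol : List (List ℕ × ℕ))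
    (hhost : ∀ h ∈ hosts, hmin ≤ h ∧ h ≤ L)
    (hframe : ∀ f ∈ frame, t ≤ f ∧ f < hmin)
    (hguest : ∀ g ∈ guests, gmin ≤ g ∧ g ≤ gmax)
    (h0 : 0 < gmin) (ht : t ≤ hmin) (hmL : hmin ≤ L)
    (h1 : L < 2 * hmin) (h2 : L < hmin + t) (h3 : L < hmin + 3 * gmin)
    (h4 : gmax < t) (h5 : 3 * gmax ≤ L)
    (hm : hosts.length = m)
    (hfs : search L fuel2 (singles frame ++ [(gmin, 3 * q + 1)])
      (r * L - vol (singles frame ++ [(gmin, 3 * q + 1)])) = false)
    (hsorted : (hosts ++ guests
      ++ List.replicate (2 * m + 3 * q - guests.length) 0).Pairwise (· ≥ ·))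
    (hsearch : part3 L fuel
      (hosts ++ guests ++ List.replicate (2 * m + 3 * q - guests.length) 0)
      ((m + q) * L - (hosts ++ guests).sum) = false)
    (hcfg : ∀ p ∈ sol, (∀ a ∈ p.1, a ∈ hosts ++ frame ++ guests) ∧ p.1.sum ≤ L)
    (hcov : ∀ a ∈ hosts ++ frame ++ guests,
      D * (hosts ++ frame ++ guests).count a ≤ (sol.map (fun p => p.1.count a * p.2)).sum) :
    (∀ x ∈ inst L (singles (hosts ++ frame ++ guests)), 0 < x ∧ x ≤ 1) ∧
      ((m : ℝ) + r + 1 - (((sol.map Prod.snd).sum : ℕ) : ℝ) / D
        ≤ (opt (inst L (singles (hosts ++ frame ++ guests))) : ℝ)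
          - lp (inst L (singles (hosts ++ frame ++ guests)))) := by
  have hex := expand_singles (hosts ++ frame ++ guests)
  have hT : ∀ a ∈ expand (singles (hosts ++ frame ++ guests)), 0 < a ∧ a ≤ L := by
    intro a ha
    rw [hex] at ha
    have ha' : a ∈ hosts ++ frame ++ guests := by simpa using ha
    rcases List.mem_append.mp ha' with h | h
    · rcases List.mem_append.mp h with h | h
      · have h6 := hhost a h
        exact ⟨by omega, h6.2⟩
      · have h6 := hframe a h
        exact ⟨by omega, by omega⟩
    · have h6 := hguest a h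
      exact ⟨by omega, by omega⟩
  refine ⟨inst_size L hL _ hT, ?_⟩
  have h7 : m + r + 1 ≤ opt (inst L (singles (hosts ++ frame ++ guests))) := by
    apply opt_lower_of L (m + r) hL _ hT
    intro P hP hb
    rw [hex] at hP
    exact no_packing_frame L m r q fuel fuel2 hmin t gmin gmax hosts frame guests
      (fun h hh => (hhost h hh).1) hframe hguest ht h1 h2 h3 h4 h5 hm hfs hsorted hsearch
      P hP hb
  have h8 := lp_upper L D hL hD (singles (hosts ++ frame ++ guests)) sol
    (by
      intro p hp
      obtain ⟨h9, h10⟩ := hcfg p hp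
      refine ⟨fun a ha => ?_, h10⟩
      rw [hex]
      simpa using h9 a ha)
    (by
      intro a ha
      rw [hex] at ha ⊢
      have ha' : a ∈ hosts ++ frame ++ guests := by simpa using ha
      simpa using hcov a ha')
  have h9 : ((m : ℝ) + r + 1) ≤ (opt (inst L (singles (hosts ++ frame ++ guests))) : ℝ) := by
    exact_mod_cast h7
  linarith

end Vale.Agent.Lib.P302
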