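import Mathlib
import Vale.Agent.Lib.P302.Defs
import Vale.Agent.Lib.P302.Check
import Vale.Agent.Lib.P302.Bridge
import Vale.Agent.Lib.P302.TwoThree
import Vale.Agent.Lib.P302.PadBig
import Vale.Agent.Lib.P302.Frame

/-!
# Hosts and guests with a frame all of whose items are larger than a quarter of the bin

The items are `hosts ++ (big ++ small) ++ guests`; the frame `big ++ small` consists of items
of size at least `t > L / 4`.  As in `Frame`, a host shares its bin only with at most two guests.
A bin with `j ≥ 1` frame items holds at most `6 - 2 * j` guests (`t + 5 * gmin > L`,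
`2 * t + 3 * gmin > L`, `3 * t + gmin > L`), and if the frame cannot be packed into `r - 1` bins
(certified by the search of `TwoThree`), then `r` bins that hold the `N` frame items hold no
bin without a frame item, hence at most `6 * r - 2 * N` guests.  So a packing into `m + r` bins
puts all but `3 * q - nb ≥ 6 * r - 2 * N` guests into the bins of the hosts.  Padding gives a
partition of `hosts ++ [bl, ..., bl] ++ guests ++ [0, ..., 0]` (`nb` items of size `bl`) into
`m + q` triples of total size at most `L`, which the search `part3` excludes.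
-/

namespace Vale.Agent.Lib.P302

theorem filter_map_join (p : ℕ → Prop) [DecidablePred p] (P : Multiset (Multiset ℕ)) :
    (P.map (Multiset.filter p)).join = P.join.filter p := by
  induction P using Multiset.induction_on with
  | empty => simp
  | cons b P ih =>
    rw [Multiset.map_cons, Multiset.join_cons, ih, Multiset.join_cons, Multiset.filter_add]

theorem sum_map_le_card_mul {α : Type*} (P : Multiset α) (f : α → ℕ) (c : ℕ)
    (h : ∀ b ∈ P, f b ≤ c) : (P.map f).sum ≤ Multiset.card P * c := by
  induction P using Multiset.induction_on with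
  | empty => simp
  | cons b P ih =>
    have h1 := h b (Multiset.mem_cons_self b P)
    have h2 := ih (fun b' hb' => h b' (Multiset.mem_cons_of_mem hb'))
    rw [Multiset.map_cons, Multiset.sum_cons, Multiset.card_cons]
    have : (Multiset.card P + 1) * c = Multiset.card P * c + c := by ring
    omega

/-- If the frame (items of size at least `t`) needs `r` bins, then `r` bins that hold the frame
hold at most `6 * r - 2 * N` further items of size at least `gmin`. -/
theorem frame_bound23 (L r t gmin : ℕ) (frame : List ℕ)
    (hfr : ∀ f ∈ frame, t ≤ f)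
    (c1 : L < t + 5 * gmin) (c2 : L < 2 * t + 3 * gmin) (c3 : L < 3 * t + gmin)
    (c4 : L < 4 * t)
    (hopt : ∀ P' : Multiset (Multiset ℕ), P'.join = (frame : Multiset ℕ) →
      (∀ b ∈ P', b.sum ≤ L) → r ≤ Multiset.card P')
    (PF : Multiset (Multiset ℕ)) (S : Multiset ℕ)
    (hS : ∀ x ∈ S, gmin ≤ x ∧ x < t)
    (hjoin : PF.join = (frame : Multiset ℕ) + S) (hb : ∀ b ∈ PF, b.sum ≤ L)
    (hcard : Multiset.card PF ≤ r) : Multiset.card S + 2 * frame.length ≤ 6 * r := by
  have hf1 : (frame : Multiset ℕ).filter (fun x => x < t) = 0 := by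
    rw [Multiset.filter_eq_nil]
    intro a ha
    have := hfr a (by simpa using ha)
    omega
  have hf2 : (frame : Multiset ℕ).filter (fun x => ¬ x < t) = (frame : Multiset ℕ) := by
    rw [Multiset.filter_eq_self]
    intro a ha
    have := hfr a (by simpa using ha)
    omega
  have hS1 : S.filter (fun x => x < t) = S := by
    rw [Multiset.filter_eq_self]
    intro a ha
    exact (hS a ha).2
  have hS2 : S.filter (fun x => ¬ x < t) = 0 := by
    rw [Multiset.filter_eq_nil]
    intro a ha
    have := (hS a ha).2
    simpa using this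
  have hfil1 : PF.join.filter (fun x => x < t) = S := by
    rw [hjoin, Multiset.filter_add, hf1, hS1, zero_add]
  have hfil2 : PF.join.filter (fun x => ¬ x < t) = (frame : Multiset ℕ) := by
    rw [hjoin, Multiset.filter_add, hf2, hS2, add_zero]
  -- every bin holds a frame item
  have hne : ∀ b ∈ PF, 1 ≤ Multiset.card (b.filter (fun x => ¬ x < t)) := by
    intro b0 hb0
    by_contra hcon
    have h0 : b0.filter (fun x => ¬ x < t) = 0 := Multiset.card_eq_zero.mp (by omega)
    have hPe : PF = b0 ::ₘ PF.erase b0 := (Multiset.cons_erase hb0).symm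
    have hj : ((PF.erase b0).map (Multiset.filter (fun x => ¬ x < t))).join
        = (frame : Multiset ℕ) := by
      rw [filter_map_join, ← hfil2]
      conv_rhs => rw [hPe]
      rw [Multiset.join_cons, Multiset.filter_add, h0, zero_add]
    have hsum : ∀ b ∈ (PF.erase b0).map (Multiset.filter (fun x => ¬ x < t)), b.sum ≤ L := by
      intro b' hb'
      obtain ⟨b, hbE, rfl⟩ := Multiset.mem_map.mp hb'
      have h5 := hb b (Multiset.mem_of_mem_erase hbE)
      have hs := sum_filter_add (fun x => x < t) b
      omega
    have h9 := hopt _ hj hsum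
    rw [Multiset.card_map, Multiset.card_erase_of_mem hb0] at h9
    have h10 : 0 < Multiset.card PF := Multiset.card_pos_iff_exists_mem.mpr ⟨b0, hb0⟩
    have h11 : Multiset.card PF - 1 = (Multiset.card PF).pred := rfl
    omega
  -- every bin: guests + 2 * frame items ≤ 6
  have hbin : ∀ b ∈ PF, Multiset.card (b.filter (fun x => x < t))
      + 2 * Multiset.card (b.filter (fun x => ¬ x < t)) ≤ 6 := by
    intro b hbP
    have hj1 := hne b hbP
    have hs := sum_filter_add (fun x => x < t) b
    have hbL := hb b hbP
    have hg : ∀ x ∈ b.filter (fun x => x < t), gmin ≤ x := by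
      intro x hx
      obtain ⟨hxb, hxt⟩ := Multiset.mem_filter.mp hx
      have hxj : x ∈ PF.join := Multiset.mem_join.mpr ⟨b, hbP, hxb⟩
      have hxS : x ∈ S := by
        rw [← hfil1]; exact Multiset.mem_filter.mpr ⟨hxj, hxt⟩
      exact (hS x hxS).1
    have hf : ∀ x ∈ b.filter (fun x => ¬ x < t), t ≤ x := by
      intro x hx
      have := (Multiset.mem_filter.mp hx).2
      omega
    have hsg := card_mul_le_sum gmin _ hg
    have hsf := card_mul_le_sum t _ hf
    obtain ⟨k, hk⟩ : ∃ k, k = Multiset.card (b.filter (fun x => x < t)) := ⟨_, rfl⟩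
    obtain ⟨j, hj⟩ : ∃ j, j = Multiset.card (b.filter (fun x => ¬ x < t)) := ⟨_, rfl⟩
    rw [← hk] at hsg
    rw [← hj] at hsf hj1
    rw [← hk, ← hj]
    have hj4 : j ≤ 3 := by
      by_contra h
      have h12 : 4 * t ≤ j * t := Nat.mul_le_mul_right _ (by omega)
      omega
    interval_cases j
    · by_contra h
      have h12 : 5 * gmin ≤ k * gmin := Nat.mul_le_mul_right _ (by omega)
      omega
    · by_contra h
      have h12 : 3 * gmin ≤ k * gmin := Nat.mul_le_mul_right _ (by omega)
      omega
    · by_contra h
      have h12 : 1 * gmin ≤ k * gmin := Nat.mul_le_mul_right _ (by omega)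
      omega
  have hsumk : (PF.map (fun b => Multiset.card (b.filter (fun x => x < t)))).sum
      = Multiset.card S := by
    rw [← card_filter_join, hfil1]
  have hsumj : (PF.map (fun b => Multiset.card (b.filter (fun x => ¬ x < t)))).sum
      = frame.length := by
    rw [← card_filter_join, hfil2]
    simp
  have htot := sum_map_le_card_mul PF (fun b => Multiset.card (b.filter (fun x => x < t))
      + 2 * Multiset.card (b.filter (fun x => ¬ x < t))) 6 hbin
  rw [Multiset.sum_map_add, Multiset.sum_map_mul_left, hsumk, hsumj] at htot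
  have h13 : Multiset.card PF * 6 ≤ r * 6 := Nat.mul_le_mul_right 6 hcard
  omega

/-- The general form of `no_packing_frame`: the bound for the guests in the bins without a host
is a hypothesis, and `nb` items of size `bl` fill up the triples without a host. -/
theorem no_packing_frame_gen (L m r q nb bl fuel hmin t gmin gmax : ℕ)
    (hosts frame guests : List ℕ)
    (hhost : ∀ h ∈ hosts, hmin ≤ h)
    (hframe : ∀ f ∈ frame, t ≤ f ∧ f < hmin)
    (hguest : ∀ g ∈ guests, gmin ≤ g ∧ g ≤ gmax)
    (ht : t ≤ hmin) (h1 : L < 2 * hmin) (h2 : L < hmin + t) (h3 : L < hmin + 3 * gmin)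
    (h4 : gmax < t) (hbl1 : gmax ≤ bl) (hbl2 : 3 * bl ≤ L)
    (hm : hosts.length = m)
    (hfb : ∀ (PF : Multiset (Multiset ℕ)) (S : Multiset ℕ), (∀ x ∈ S, gmin ≤ x ∧ x < t) →
      PF.join = (frame : Multiset ℕ) + S → (∀ b ∈ PF, b.sum ≤ L) → Multiset.card PF ≤ r →
      Multiset.card S + nb ≤ 3 * q)
    (hsorted : (hosts ++ List.replicate nb bl ++ guests
      ++ List.replicate (2 * m + 3 * q - nb - guests.length) 0).Pairwise (· ≥ ·))
    (hsearch : part3 L fuel
      (hosts ++ List.replicate nb bl ++ guests
        ++ List.replicate (2 * m + 3 * q - nb - guests.length) 0)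
      ((m + q) * L - (hosts ++ List.replicate nb bl ++ guests).sum) = false)
    (P : Multiset (Multiset ℕ))
    (hP : P.join = ((hosts ++ frame ++ guests : List ℕ) : Multiset ℕ))
    (hb : ∀ b ∈ P, b.sum ≤ L) : m + r + 1 ≤ Multiset.card P := by
  by_contra hlt
  have hle : Multiset.card P ≤ m + r := by omega
  have hPs : P.join = (hosts : Multiset ℕ) + (frame : Multiset ℕ) + (guests : Multiset ℕ) := by
    rw [hP, Multiset.coe_add, Multiset.coe_add]
  have hmemJ : ∀ b ∈ P, ∀ x ∈ b, x ∈ hosts ∨ x ∈ frame ∨ x ∈ guests := by
    intro b hbP x hx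
    have hxj : x ∈ P.join := Multiset.mem_join.mpr ⟨b, hbP, hx⟩
    rw [hP] at hxj
    have : x ∈ hosts ++ frame ++ guests := by simpa using hxj
    rcases List.mem_append.mp this with h | h
    · rcases List.mem_append.mp h with h | h
      · exact Or.inl h
      · exact Or.inr (Or.inl h)
    · exact Or.inr (Or.inr h)
  -- the filters of the instance
  have hJH : P.join.filter (fun x => hmin ≤ x) = (hosts : Multiset ℕ) := by
    rw [hPs, Multiset.filter_add, Multiset.filter_add]
    have e1 : (hosts : Multiset ℕ).filter (fun x => hmin ≤ x) = (hosts : Multiset ℕ) := by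
      rw [Multiset.filter_eq_self]
      intro a ha
      exact hhost a (by simpa using ha)
    have e2 : (frame : Multiset ℕ).filter (fun x => hmin ≤ x) = 0 := by
      rw [Multiset.filter_eq_nil]
      intro a ha
      have := (hframe a (by simpa using ha)).2
      omega
    have e3 : (guests : Multiset ℕ).filter (fun x => hmin ≤ x) = 0 := by
      rw [Multiset.filter_eq_nil]
      intro a ha
      have := (hguest a (by simpa using ha)).2
      omega
    rw [e1, e2, e3, add_zero, add_zero]
  have hJG : P.join.filter (fun x => x < t) = (guests : Multiset ℕ) := by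
    rw [hPs, Multiset.filter_add, Multiset.filter_add]
    have e1 : (hosts : Multiset ℕ).filter (fun x => x < t) = 0 := by
      rw [Multiset.filter_eq_nil]
      intro a ha
      have := hhost a (by simpa using ha)
      omega
    have e2 : (frame : Multiset ℕ).filter (fun x => x < t) = 0 := by
      rw [Multiset.filter_eq_nil]
      intro a ha
      have := (hframe a (by simpa using ha)).1
      omega
    have e3 : (guests : Multiset ℕ).filter (fun x => x < t) = (guests : Multiset ℕ) := by
      rw [Multiset.filter_eq_self]
      intro a ha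
      have := (hguest a (by simpa using ha)).2
      omega
    rw [e1, e2, e3, zero_add, zero_add]
  have hJN : P.join.filter (fun x => ¬ x < t)
      = (hosts : Multiset ℕ) + (frame : Multiset ℕ) := by
    rw [hPs, Multiset.filter_add, Multiset.filter_add]
    have e1 : (hosts : Multiset ℕ).filter (fun x => ¬ x < t) = (hosts : Multiset ℕ) := by
      rw [Multiset.filter_eq_self]
      intro a ha
      have := hhost a (by simpa using ha)
      omega
    have e2 : (frame : Multiset ℕ).filter (fun x => ¬ x < t) = (frame : Multiset ℕ) := by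
      rw [Multiset.filter_eq_self]
      intro a ha
      have := (hframe a (by simpa using ha)).1
      omega
    have e3 : (guests : Multiset ℕ).filter (fun x => ¬ x < t) = 0 := by
      rw [Multiset.filter_eq_nil]
      intro a ha
      have := (hguest a (by simpa using ha)).2
      simp only [not_not]
      omega
    rw [e1, e2, e3, add_zero]
  -- every bin holds at most one host
  have hone : ∀ b ∈ P, Multiset.card (b.filter (fun x => hmin ≤ x)) ≤ 1 := by
    intro b hbP
    by_contra hcon
    have h2' : 2 ≤ Multiset.card (b.filter (fun x => hmin ≤ x)) := by omega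
    have hsum := card_mul_le_sum hmin (b.filter (fun x => hmin ≤ x))
      (fun x hx => (Multiset.mem_filter.mp hx).2)
    have hs := sum_filter_add (fun x => hmin ≤ x) b
    have hbL := hb b hbP
    have hmul : 2 * hmin ≤ Multiset.card (b.filter (fun x => hmin ≤ x)) * hmin :=
      Nat.mul_le_mul_right _ h2'
    omega
  have hcount : (P.map (fun b => Multiset.card (b.filter (fun x => hmin ≤ x)))).sum = m := by
    rw [← card_filter_join, hJH]
    simpa using hm
  -- the bins with a host and the bins without
  set PH := P.filter (fun b => Multiset.card (b.filter (fun x => hmin ≤ x)) = 1) with hPH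
  set PF := P.filter (fun b => ¬ Multiset.card (b.filter (fun x => hmin ≤ x)) = 1) with hPF
  have hsplitP : PH + PF = P := Multiset.filter_add_not _ P
  have hcardH : Multiset.card PH = m := by
    rw [hPH, ← sum_map_eq_card_filter P _ hone]
    exact hcount
  have hcardF : Multiset.card PF ≤ r := by
    have : Multiset.card P = Multiset.card PH + Multiset.card PF := by
      rw [← hsplitP, Multiset.card_add]
    omega
  have hjoinP : P.join = PH.join + PF.join := by
    rw [← hsplitP, Multiset.join_add]
  -- bins with a host: the other items are at most two guests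
  have hHbin : ∀ b ∈ PH, (∀ x ∈ b, ¬ hmin ≤ x → gmin ≤ x ∧ x < t) ∧ Multiset.card b ≤ 3 := by
    intro b hbH
    obtain ⟨hbP, hb1⟩ := Multiset.mem_filter.mp hbH
    obtain ⟨h, hh⟩ := Multiset.card_eq_one.mp hb1
    have hhm : hmin ≤ h := by
      have : h ∈ b.filter (fun x => hmin ≤ x) := by rw [hh]; simp
      exact (Multiset.mem_filter.mp this).2
    have hs := sum_filter_add (fun x => hmin ≤ x) b
    rw [hh, Multiset.sum_singleton] at hs
    have hbL := hb b hbP
    have hrest : ∀ x ∈ b, ¬ hmin ≤ x → gmin ≤ x ∧ x < t := by
      intro x hx hxh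
      have hxr : x ∈ b.filter (fun x => ¬ hmin ≤ x) := Multiset.mem_filter.mpr ⟨hx, hxh⟩
      have hxs : x ≤ (b.filter (fun x => ¬ hmin ≤ x)).sum := Multiset.le_sum_of_mem hxr
      have hxt : x < t := by omega
      refine ⟨?_, hxt⟩
      rcases hmemJ b hbP x hx with h' | h' | h'
      · exact absurd (hhost x h') hxh
      · have := (hframe x h').1
        omega
      · exact (hguest x h').1
    refine ⟨hrest, ?_⟩
    have hc := card_filter_add (fun x => hmin ≤ x) b
    rw [hh, Multiset.card_singleton] at hc
    have hsum := card_mul_le_sum gmin (b.filter (fun x => ¬ hmin ≤ x))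
      (fun x hx => (hrest x (Multiset.mem_filter.mp hx).1 (Multiset.mem_filter.mp hx).2).1)
    by_contra hcon
    have h8 : 3 ≤ Multiset.card (b.filter (fun x => ¬ hmin ≤ x)) := by omega
    have hmul : 3 * gmin ≤ Multiset.card (b.filter (fun x => ¬ hmin ≤ x)) * gmin :=
      Nat.mul_le_mul_right _ h8
    omega
  -- bins without a host hold no host
  have hFH : PF.join.filter (fun x => hmin ≤ x) = 0 := by
    apply Multiset.card_eq_zero.mp
    rw [card_filter_join, Multiset.sum_eq_zero_iff]
    intro n hn
    obtain ⟨b, hbF, rfl⟩ := Multiset.mem_map.mp hn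
    obtain ⟨hbP, hb1⟩ := Multiset.mem_filter.mp hbF
    have := hone b hbP
    omega
  have hHH : PH.join.filter (fun x => hmin ≤ x) = (hosts : Multiset ℕ) := by
    have h9 := hJH
    rw [hjoinP, Multiset.filter_add, hFH, add_zero] at h9
    exact h9
  have hHN : PH.join.filter (fun x => ¬ x < t) = (hosts : Multiset ℕ) := by
    rw [← hHH]
    apply Multiset.filter_congr
    intro x hx
    obtain ⟨b, hbH, hxb⟩ := Multiset.mem_join.mp hx
    constructor
    · intro hxt
      by_contra hxh
      exact hxt ((hHbin b hbH).1 x hxb hxh).2
    · intro hxh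
      omega
  have hFN : PF.join.filter (fun x => ¬ x < t) = (frame : Multiset ℕ) := by
    have h9 := hJN
    rw [hjoinP, Multiset.filter_add, hHN] at h9
    exact add_left_cancel h9
  have hGsplit : PH.join.filter (fun x => x < t) + PF.join.filter (fun x => x < t)
      = (guests : Multiset ℕ) := by
    rw [← Multiset.filter_add, ← hjoinP, hJG]
  have hGmem : ∀ x ∈ PF.join.filter (fun x => x < t), gmin ≤ x ∧ x ≤ gmax := by
    intro x hx
    have hxg : x ∈ (guests : Multiset ℕ) := by
      rw [← hGsplit]
      exact Multiset.mem_add.mpr (Or.inr hx)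
    exact hguest x (by simpa using hxg)
  -- the bins without a host hold at most `3 * q` guests
  have hFjoin : PF.join = (frame : Multiset ℕ) + PF.join.filter (fun x => x < t) := by
    conv_lhs => rw [← Multiset.filter_add_not (fun x => x < t) PF.join]
    rw [hFN, add_comm]
  have hSF : Multiset.card (PF.join.filter (fun x => x < t)) + nb ≤ 3 * q :=
    hfb PF _ (fun x hx => ⟨(hGmem x hx).1, (Multiset.mem_filter.mp hx).2⟩) hFjoin
      (fun b hbF => hb b (Multiset.mem_filter.mp hbF).1) hcardF
  -- the bins with a host, padded to triples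
  have hHjoin : PH.join = (hosts : Multiset ℕ) + PH.join.filter (fun x => x < t) := by
    conv_lhs => rw [← Multiset.filter_add_not (fun x => x < t) PH.join]
    rw [hHN, add_comm]
  have hpadH := sum_pad_add_card PH (fun b hbH => (hHbin b hbH).2)
  have hcardHj : Multiset.card PH.join
      = m + Multiset.card (PH.join.filter (fun x => x < t)) := by
    conv_lhs => rw [hHjoin]
    rw [Multiset.card_add]
    simp [hm]
  have hcardG : Multiset.card (PH.join.filter (fun x => x < t))
      + Multiset.card (PF.join.filter (fun x => x < t)) = guests.length := by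
    rw [← Multiset.card_add, hGsplit]
    simp
  obtain ⟨TF, hTF1, hTF2, hTF3⟩ := exists_triples L bl hbl2 q
    (PF.join.filter (fun x => x < t) + Multiset.replicate nb bl
      + Multiset.replicate (3 * q - nb - Multiset.card (PF.join.filter (fun x => x < t))) 0)
    (by rw [Multiset.card_add, Multiset.card_add, Multiset.card_replicate,
      Multiset.card_replicate]; omega)
    (by
      intro x hx
      rcases Multiset.mem_add.mp hx with h | h
      · rcases Multiset.mem_add.mp h with h | h
        · have := (hGmem x h).2
          omega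
        · have := Multiset.eq_of_mem_replicate h
          omega
      · have := Multiset.eq_of_mem_replicate h
        omega)
  -- abstract the two multisets of guests
  obtain ⟨SH, hSH⟩ : ∃ SH, SH = PH.join.filter (fun x => x < t) := ⟨_, rfl⟩
  obtain ⟨SF, hSFd⟩ : ∃ SF, SF = PF.join.filter (fun x => x < t) := ⟨_, rfl⟩
  rw [← hSH] at hHjoin hcardHj hcardG hGsplit
  rw [← hSFd] at hTF1 hcardG hGsplit hSF
  have hjoin : (PH.map pad3 + TF).join = ((hosts ++ List.replicate nb bl ++ guests
      ++ List.replicate (2 * m + 3 * q - nb - guests.length) 0 : List ℕ) : Multiset ℕ) := by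
    rw [Multiset.join_add, join_map_pad3, hTF1]
    have hz : (PH.map (fun b => 3 - Multiset.card b)).sum = 2 * m - Multiset.card SH := by
      omega
    rw [hz, hHjoin, ← Multiset.coe_add, ← Multiset.coe_add, ← Multiset.coe_add,
      Multiset.coe_replicate, Multiset.coe_replicate, ← hGsplit]
    have hrep : Multiset.replicate (2 * m + 3 * q - nb - guests.length) 0
        = Multiset.replicate (2 * m - Multiset.card SH) 0
          + Multiset.replicate (3 * q - nb - Multiset.card SF) 0 := by
      rw [← Multiset.replicate_add]
      congr 1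
      omega
    rw [hrep]
    abel
  have htrip : ∀ b ∈ PH.map pad3 + TF, Multiset.card b = 3 ∧ b.sum ≤ L := by
    intro b' hb'
    rcases Multiset.mem_add.mp hb' with h | h
    · obtain ⟨b, hbH, rfl⟩ := Multiset.mem_map.mp h
      have h1' := (hHbin b hbH).2
      refine ⟨?_, ?_⟩
      · rw [pad3, Multiset.card_add, Multiset.card_replicate]; omega
      · rw [pad3, Multiset.sum_add, Multiset.sum_replicate]
        simpa using hb b (Multiset.mem_filter.mp hbH).1
    · exact hTF3 b' h
  have hsum : (hosts ++ List.replicate nb bl ++ guests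
      ++ List.replicate (2 * m + 3 * q - nb - guests.length) 0).sum
      = (hosts ++ List.replicate nb bl ++ guests).sum := by
    rw [List.sum_append, List.sum_replicate]; simp
  have h8 := part3_complete L fuel _ ((m + q) * L - (hosts ++ List.replicate nb bl ++ guests).sum)
    hsorted ⟨PH.map pad3 + TF, hjoin, htrip, by
      rw [Multiset.card_add, Multiset.card_map, hcardH, hTF2, hsum]; omega⟩
  rw [hsearch] at h8
  exact Bool.false_ne_true h8

/-- Certificate theorem for instances made of `m` hosts, a frame `big ++ small` of items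
larger than a quarter of the bin, and guests (see the header); `sol` is a fractional solution
(patterns with weights `numerator / D`). -/
theorem gap_certificate_frame23 (L m r q nb bl k fuel fuel2 hmin t gmin gmax D : ℕ)
    (hL : 0 < L) (hD : 0 < D) (hosts big small guests : List ℕ) (sol : List (List ℕ × ℕ))
    (hhost : ∀ h ∈ hosts, hmin ≤ h ∧ h ≤ L)
    (hframe : ∀ f ∈ big ++ small, t ≤ f ∧ f < hmin)
    (hguest : ∀ g ∈ guests, gmin ≤ g ∧ g ≤ gmax)
    (h0 : 0 < gmin) (ht : t ≤ hmin) (hmL : hmin ≤ L)
    (h1 : L < 2 * hmin) (h2 : L < hmin + t) (h3 : L < hmin + 3 * gmin)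
    (h4 : gmax < t) (hbl1 : gmax ≤ bl) (hbl2 : 3 * bl ≤ L)
    (c1 : L < t + 5 * gmin) (c2 : L < 2 * t + 3 * gmin) (c3 : L < 3 * t + gmin)
    (c4 : L < 4 * t)
    (hm : hosts.length = m) (hr : 1 ≤ r)
    (hfsorted : (big ++ small).Pairwise (· ≥ ·))
    (hlen : small.length = 3 * k) (hk : 2 * (r - 1) ≤ big.length + 2 * k)
    (hfsearch : part3 L fuel2 small (k * L - small.sum) = false)
    (hQ : 6 * r + nb ≤ 3 * q + 2 * (big ++ small).length)
    (hsorted : (hosts ++ List.replicate nb bl ++ guests
      ++ List.replicate (2 * m + 3 * q - nb - guests.length) 0).Pairwise (· ≥ ·))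
    (hsearch : part3 L fuel
      (hosts ++ List.replicate nb bl ++ guests
        ++ List.replicate (2 * m + 3 * q - nb - guests.length) 0)
      ((m + q) * L - (hosts ++ List.replicate nb bl ++ guests).sum) = false)
    (hcfg : ∀ p ∈ sol, (∀ a ∈ p.1, a ∈ hosts ++ (big ++ small) ++ guests) ∧ p.1.sum ≤ L)
    (hcov : ∀ a ∈ hosts ++ (big ++ small) ++ guests,
      D * (hosts ++ (big ++ small) ++ guests).count a
        ≤ (sol.map (fun p => p.1.count a * p.2)).sum) :
    (∀ x ∈ inst L (singles (hosts ++ (big ++ small) ++ guests)), 0 < x ∧ x ≤ 1) ∧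
      ((m : ℝ) + r + 1 - (((sol.map Prod.snd).sum : ℕ) : ℝ) / D
        ≤ (opt (inst L (singles (hosts ++ (big ++ small) ++ guests))) : ℝ)
          - lp (inst L (singles (hosts ++ (big ++ small) ++ guests)))) := by
  have hex := expand_singles (hosts ++ (big ++ small) ++ guests)
  have hT : ∀ a ∈ expand (singles (hosts ++ (big ++ small) ++ guests)), 0 < a ∧ a ≤ L := by
    intro a ha
    rw [hex] at ha
    have ha' : a ∈ hosts ++ (big ++ small) ++ guests := by simpa using ha
    rcases List.mem_append.mp ha' with h | h
    · rcases List.mem_append.mp h with h | h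
      · have h6 := hhost a h
        exact ⟨by omega, h6.2⟩
      · have h6 := hframe a h
        exact ⟨by omega, by omega⟩
    · have h6 := hguest a h
      exact ⟨by omega, by omega⟩
  refine ⟨inst_size L hL _ hT, ?_⟩
  have hfb : ∀ (PF : Multiset (Multiset ℕ)) (S : Multiset ℕ), (∀ x ∈ S, gmin ≤ x ∧ x < t) →
      PF.join = ((big ++ small : List ℕ) : Multiset ℕ) + S → (∀ b ∈ PF, b.sum ≤ L) →
      Multiset.card PF ≤ r → Multiset.card S + nb ≤ 3 * q := by
    intro PF S hS hjoin hbF hcard
    have h6 := frame_bound23 L r t gmin (big ++ small) (fun f hf => (hframe f hf).1) c1 c2 c3 c4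
      (by
        intro P' hP' hb'
        have h7 := no_packing23 L (r - 1) k fuel2 big small hfsorted
          (fun a ha => by
            have := (hframe a ha).1
            omega) hlen hk hfsearch P' hP' hb'
        omega) PF S hS hjoin hbF hcard
    omega
  have h7 : m + r + 1 ≤ opt (inst L (singles (hosts ++ (big ++ small) ++ guests))) := by
    apply opt_lower_of L (m + r) hL _ hT
    intro P hP hb
    rw [hex] at hP
    exact no_packing_frame_gen L m r q nb bl fuel hmin t gmin gmax hosts (big ++ small) guests
      (fun h hh => (hhost h hh).1) hframe hguest ht h1 h2 h3 h4 hbl1 hbl2 hm hfb hsorted hsearch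
      P hP hb
  have h8 := lp_upper L D hL hD (singles (hosts ++ (big ++ small) ++ guests)) sol
    (by
      intro p hp
      obtain ⟨h9, h10⟩ := hcfg p hp
      refine ⟨fun a ha => ?_, h10⟩
      rw [hex]
      simpa using h9 a ha)
    (by
      intro a ha
      rw [hex] at ha ⊢
      have ha' : a ∈ hosts ++ (big ++ small) ++ guests := by simpa using ha
      simpa using hcov a ha')
  have h9 : ((m : ℝ) + r + 1)
      ≤ (opt (inst L (singles (hosts ++ (big ++ small) ++ guests))) : ℝ) := by
    exact_mod_cast h7
  linarith

end Vale.Agent.Lib.P302
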