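import Mathlib
import Vale.Agent.Lib.P302.Defs
import Vale.Agent.Lib.P302.Check
import Vale.Agent.Lib.P302.Bridge
import Vale.Agent.Lib.P302.TwoThree
import Vale.Agent.Lib.P302.PadBig
import Vale.Agent.Lib.P302.Frame
import Vale.Agent.Lib.P302.Frame23

/-!
# Hosts + frame + guests, any number of spare guests

A variant of `gap_certificate_frame`: the frame items together with `Q + 1` guests do not fit
into `r` bins (generic verified search), where `Q` need not be a multiple of three: `nb`
phantom items of size `bl` (at least as large as every guest, three of them fit into a bin)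
fill up the `q` virtual bins of the host search, `Q + nb ≤ 3 * q`.
-/

namespace Vale.Agent.Lib.P302

/-- Certificate theorem for instances made of `m` hosts, a frame and guests; `sol` is a
fractional solution (patterns with weights `numerator / D`). -/
theorem gap_certificate_frame_gen (L m r q nb bl Q fuel fuel2 hmin t gmin gmax D : ℕ)
    (hL : 0 < L) (hD : 0 < D) (hosts frame guests : List ℕ) (sol : List (List ℕ × ℕ))
    (hhost : ∀ h ∈ hosts, hmin ≤ h ∧ h ≤ L)
    (hframe : ∀ f ∈ frame, t ≤ f ∧ f < hmin)
    (hguest : ∀ g ∈ guests, gmin ≤ g ∧ g ≤ gmax)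
    (h0 : 0 < gmin) (ht : t ≤ hmin) (hmL : hmin ≤ L)
    (h1 : L < 2 * hmin) (h2 : L < hmin + t) (h3 : L < hmin + 3 * gmin)
    (h4 : gmax < t) (hbl1 : gmax ≤ bl) (hbl2 : 3 * bl ≤ L)
    (hm : hosts.length = m) (hQ : Q + nb ≤ 3 * q)
    (hfs : search L fuel2 (singles frame ++ [(gmin, Q + 1)])
      (r * L - vol (singles frame ++ [(gmin, Q + 1)])) = false)
    (hsorted : (hosts ++ List.replicate nb bl ++ guests
      ++ List.replicate (2 * m + 3 * q - nb - guests.length) 0).Pairwise (· ≥ ·))
    (hsearch : part3 L fuel
      (hosts ++ List.replicate nb bl ++ guests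
        ++ List.replicate (2 * m + 3 * q - nb - guests.length) 0)
      ((m + q) * L - (hosts ++ List.replicate nb bl ++ guests).sum) = false)
    (hcfg : ∀ p ∈ sol, (∀ a ∈ p.1, a ∈ hosts ++ frame ++ guests) ∧ p.1.sum ≤ L)
    (hcov : ∀ a ∈ hosts ++ frame ++ guests,
      D * (hosts ++ frame ++ guests).count a ≤ (sol.map (fun p => p.1.count a * p.2)).sum) :
    (∀ x ∈ inst L (singles (hosts ++ frame ++ guests)), 0 < x ∧ x ≤ 1) ∧
      ((m : ℝ) + r + 1 - (((sol.map Prod.snd).sum : ℕ) : ℝ) / D
        ≤ (opt (inst L (singles (hosts ++ frame ++ guests))) : ℝ)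
          - lp (inst L (singles (hosts ++ frame ++ guests)))) := by
  have hex := expand_singles (hosts ++ frame ++ guests)
  have hT : ∀ a ∈ expand (singles (hosts ++ frame ++ guests)), 0 < a ∧ a ≤ L := by
    intro a ha
    rw [hex] at ha
    have ha' : a ∈ hosts ++ frame ++ guests := by simpa using ha
    rcases List.mem_append.mp ha' with h | h
    · rcases List.mem_append.mp h with h | h
      · have h6 := hhost a h
        exact ⟨by omega, h6.2⟩
      · have h6 := hframe a h
        exact ⟨by omega, by omega⟩
    · have h6 := hguest a h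
      exact ⟨by omega, by omega⟩
  refine ⟨inst_size L hL _ hT, ?_⟩
  have hfb : ∀ (PF : Multiset (Multiset ℕ)) (S : Multiset ℕ), (∀ x ∈ S, gmin ≤ x ∧ x < t) →
      PF.join = (frame : Multiset ℕ) + S → (∀ b ∈ PF, b.sum ≤ L) →
      Multiset.card PF ≤ r → Multiset.card S + nb ≤ 3 * q := by
    intro PF S hS hjoin hbF hcard
    have h6 := frame_bound L r t gmin Q fuel2 frame (fun f hf => (hframe f hf).1) hfs PF S hS
      hjoin hbF hcard
    omega
  have h7 : m + r + 1 ≤ opt (inst L (singles (hosts ++ frame ++ guests))) := by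
    apply opt_lower_of L (m + r) hL _ hT
    intro P hP hb
    rw [hex] at hP
    exact no_packing_frame_gen L m r q nb bl fuel hmin t gmin gmax hosts frame guests
      (fun h hh => (hhost h hh).1) hframe hguest ht h1 h2 h3 h4 hbl1 hbl2 hm hfb hsorted hsearch
      P hP hb
  have h8 := lp_upper L D hL hD (singles (hosts ++ frame ++ guests)) sol
    (by
      intro p hp
      obtain ⟨h9, h10⟩ := hcfg p hp
      refine ⟨fun a ha => ?_, h10⟩
      rw [hex]
      simpa using h9 a ha)
    (by
      intro a ha
      rw [hex] at ha ⊢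
      have ha' : a ∈ hosts ++ frame ++ guests := by simpa using ha
      simpa using hcov a ha')
  have h9 : ((m : ℝ) + r + 1) ≤ (opt (inst L (singles (hosts ++ frame ++ guests))) : ℝ) := by
    exact_mod_cast h7
  linarith

end Vale.Agent.Lib.P302
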